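import Mathlib

/-!
P211, the certificate class: coefficients whose numerators are sums of terms
`c A ^ a w ^ b σ ^ j (1 + A) ^ m` in `A = |d(f - g)|²`, `w = f - g`, `σ = 2 - f - g`, to be divided
by `B ^ (4/3) (1 + A) ^ 2` (the last one: by `B ^ (7/3) (1 + A) ^ 2`), `B = A + w² + kap σ`.
-/

namespace Vale.Agent.P211.Cert

noncomputable section

/-- One term of a numerator: a coefficient and four exponents. -/
structure Term where
  /-- The coefficient. -/
  c : ℤ
  /-- The exponent of `A`. -/
  a : ℕ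
  /-- The exponent of `w`. -/
  b : ℕ
  /-- The exponent of `σ`. -/
  j : ℕ
  /-- The exponent of `1 + A`. -/
  m : ℕ
deriving DecidableEq, Repr

namespace Term

/-- The value of a term. -/
def val (T : Term) (w s A : ℝ) : ℝ := T.c * A ^ T.a * w ^ T.b * s ^ T.j * (1 + A) ^ T.m

/-- Its derivative in `A`. -/
def valA (T : Term) (w s A : ℝ) : ℝ :=
  T.c * (T.a * A ^ (T.a - 1) * (1 + A) ^ T.m + T.m * A ^ T.a * (1 + A) ^ (T.m - 1)) * w ^ T.b *
    s ^ T.j

/-- Its derivative in `w`. -/
def valW (T : Term) (w s A : ℝ) : ℝ :=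
  T.c * A ^ T.a * (T.b * w ^ (T.b - 1)) * s ^ T.j * (1 + A) ^ T.m

/-- Its derivative in `σ`. -/
def valS (T : Term) (w s A : ℝ) : ℝ :=
  T.c * A ^ T.a * w ^ T.b * (T.j * s ^ (T.j - 1)) * (1 + A) ^ T.m

/-- Enough weight at the singular point, and a degree in `A` of at most four. -/
def Fit (T : Term) : Prop := 4 ≤ 2 * T.a + T.b + 2 * T.j ∧ T.a + T.m ≤ 4

instance : DecidablePred Fit := fun T => by unfold Fit; infer_instance

end Term

/-- The numerator of a coefficient. -/
abbrev Num : Type := List Term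

namespace Num

/-- The value of a numerator. -/
def val (Y : Num) (w s A : ℝ) : ℝ := (Y.map fun T => T.val w s A).sum

/-- Its derivative in `A`. -/
def valA (Y : Num) (w s A : ℝ) : ℝ := (Y.map fun T => T.valA w s A).sum

/-- Its derivative in `w`. -/
def valW (Y : Num) (w s A : ℝ) : ℝ := (Y.map fun T => T.valW w s A).sum

/-- Its derivative in `σ`. -/
def valS (Y : Num) (w s A : ℝ) : ℝ := (Y.map fun T => T.valS w s A).sum

end Num

/-- The five numerators: three fields and two multipliers. -/
structure Vec where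
  /-- The field `d(f - g)`. -/
  Y0 : Num
  /-- The field `d(f + g)`. -/
  Y1 : Num
  /-- The Hessian field. -/
  Y2 : Num
  /-- The constant part of the multiplier. -/
  Y3 : Num
  /-- Its slope in the penalty force. -/
  Y4 : Num

/-- All terms fit. -/
def Vec.Fit (V : Vec) : Prop :=
  ∀ T ∈ V.Y0 ++ V.Y1 ++ V.Y2 ++ V.Y3 ++ V.Y4, Term.Fit T

instance (V : Vec) : Decidable V.Fit := by unfold Vec.Fit; infer_instance

/-- The weight of `σ` in the basis of the singular weight. -/
def kap : ℝ := 10

lemma kap_ge : 1 ≤ kap := by norm_num [kap]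

lemma kap_le : kap ≤ 10 := by norm_num [kap]

/-- The basis of the singular weight. -/
def bB (f g A : ℝ) : ℝ := A + (f - g) ^ 2 + kap * (2 - f - g)

/-- The value of a coefficient, times `3 B ^ (7/3) (1 + A) ^ 3`. -/
def scV (Y : Num) (f g A : ℝ) : ℝ := 3 * bB f g A * (1 + A) * Y.val (f - g) (2 - f - g) A

/-- The same for its derivative in `A`. -/
def scA (Y : Num) (f g A : ℝ) : ℝ :=
  3 * (1 + A) * bB f g A * Y.valA (f - g) (2 - f - g) A -
    4 * (1 + A) * Y.val (f - g) (2 - f - g) A - 6 * bB f g A * Y.val (f - g) (2 - f - g) A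

/-- The same for its derivative in `w` at fixed `σ`: half the difference of the partial derivatives
in `f` and `g`. -/
def scW (Y : Num) (f g A : ℝ) : ℝ :=
  3 * (1 + A) * bB f g A * Y.valW (f - g) (2 - f - g) A -
    8 * (1 + A) * (f - g) * Y.val (f - g) (2 - f - g) A

/-- The same for its derivative in `f + g` at fixed `w`: half the sum of the partial derivatives. -/
def scU (Y : Num) (f g A : ℝ) : ℝ :=
  -(3 * (1 + A) * bB f g A * Y.valS (f - g) (2 - f - g) A -
    4 * kap * (1 + A) * Y.val (f - g) (2 - f - g) A)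

/-- The slope of the multiplier, on the same scale. -/
def scK (Y : Num) (f g A : ℝ) : ℝ := 3 * (1 + A) * Y.val (f - g) (2 - f - g) A

/-- The scale. -/
def scale (f g A : ℝ) : ℝ := 3 * bB f g A ^ (7 / 3 : ℝ) * (1 + A) ^ 3

end

end Vale.Agent.P211.Cert
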