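import Mathlib
import Vale.Agent.P211.Cert.Class

/-!
P211, the certificate conditions on a symbolic vector: quadratic form inequalities in polynomial
coefficients of `(f, g, A)`, everything multiplied by `scale`.  The gradient of `f + g` along that
of `f - g` is written `√A m`, across it `√A τ`.
-/

namespace Vale.Agent.P211.Cert

noncomputable section

/-- The reaction at the level. -/
def reactF (s : ℝ) : ℝ := 2 * s * (1 - s ^ 3)

/-- The weight of the correction in the constraint function: it makes `qLev (158 / 125) = 2`. -/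
def gamQ : ℝ := 304496 / 68921

/-- The constraint function on the relevant range. -/
def qLev (s : ℝ) : ℝ := s ^ 3 - gamQ * max (s - 11 / 10) 0 ^ 3

/-- A third of its derivative. -/
def eLev (s : ℝ) : ℝ := s ^ 2 - gamQ * max (s - 11 / 10) 0 ^ 2

/-- The derivative of `eLev`. -/
def eLev₁ (s : ℝ) : ℝ := 2 * s - 2 * gamQ * max (s - 11 / 10) 0

/-- The strength of the softening of the reaction inside the level. -/
def cSoft : ℝ := 1384448 / 3246327

/-- The softened reaction of the first unknown: below `reactF`, equal to it from the level on. -/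
def reactT (f g : ℝ) : ℝ := reactF f - cSoft * eLev f * max (2 - qLev f - qLev g) 0 ^ 2

lemma reactT_of_level {f g : ℝ} (h : 2 ≤ qLev f + qLev g) : reactT f g = reactF f := by
  rw [reactT, max_eq_right (by linarith : 2 - qLev f - qLev g ≤ 0)]
  ring

/-- The range of the two unknowns. -/
def InBox (f g A : ℝ) : Prop :=
  0 ≤ f ∧ f ≤ 141 / 100 ∧ 0 ≤ g ∧ g ≤ 141 / 100 ∧ 0 ≤ A

/-- The form in the Hessian entry `H` and `m`, at the traces `L = Δ(f - g)`, `Lv = Δ(f + g)`, with
the gradient of `f - g` of square `x` and the coefficients evaluated at `A`. -/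
def bodyForm (V : Vec) (f g A x L Lv H m : ℝ) : ℝ :=
  scV V.Y0 f g A * L + scV V.Y1 f g A * Lv + x * scW V.Y0 f g A + 3 * x * scV V.Y2 f g A -
    2 / 3 * scV V.Y2 f g A * L ^ 2 - x * scW V.Y2 f g A * L +
  H * (2 * x * scA V.Y0 f g A + x * scW V.Y2 f g A - 2 / 3 * scV V.Y2 f g A * L -
    2 * x * scA V.Y2 f g A * L) +
  m * (x * (scU V.Y0 f g A + scW V.Y1 f g A - scU V.Y2 f g A * L)) +
  H ^ 2 * (4 / 3 * scV V.Y2 f g A + 2 * x * scA V.Y2 f g A) + m ^ 2 * (x * scU V.Y1 f g A) +
  H * m * (x * (2 * scA V.Y1 f g A + scU V.Y2 f g A))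

/-- The form in the two directions across the gradient of `f - g`. -/
def pairForm (V : Vec) (f g A x T τ : ℝ) : ℝ :=
  T ^ 2 * (2 * scV V.Y2 f g A + 2 * x * scA V.Y2 f g A) + τ ^ 2 * (x * scU V.Y1 f g A) +
    T * τ * (x * (2 * scA V.Y1 f g A + scU V.Y2 f g A))

/-- The interior form. -/
def intForm (V : Vec) (f g A x H m : ℝ) : ℝ :=
  bodyForm V f g A x (reactT f g - reactT g f) (reactT f g + reactT g f) H m

/-- The ratio of the two gradients forced at contact. -/
def slope (f g : ℝ) : ℝ := (eLev g - eLev f) / (eLev f + eLev g)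

/-- The Laplacian of the constraint at contact, in thirds. -/
def levelPart (f g x al be φ : ℝ) : ℝ :=
  eLev f * reactF f + eLev g * reactF g + φ * (al * eLev f ^ 2 + be * eLev g ^ 2) +
    x * (eLev₁ f * eLev g ^ 2 + eLev₁ g * eLev f ^ 2) / (eLev f + eLev g) ^ 2

/-- The contact form, with the forces `φ al e(f)` and `φ be e(g)`. -/
def contactForm (V : Vec) (f g A x al be H φ : ℝ) : ℝ :=
  bodyForm V f g A x (reactF f - reactF g + φ * (al * eLev f - be * eLev g))
      (reactF f + reactF g + φ * (al * eLev f + be * eLev g)) H (slope f g) +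
    (scV V.Y3 f g A + φ * scK V.Y4 f g A) * levelPart f g x al be φ

/-- The three contact cases: both forces full, or one absent where its barrier may be touched. -/
def ContactCase (f g al be : ℝ) : Prop :=
  al = 1 ∧ be = 1 ∨ al = 0 ∧ be = 1 ∧ f ^ 3 ≤ 2 ∨ al = 1 ∧ be = 0 ∧ g ^ 3 ≤ 2

/-- The right hand side. -/
def target (ρ : ℝ → ℝ → ℝ) (f g A : ℝ) : ℝ :=
  ρ f g * (A + (f - g) ^ 2) ^ 4 * (1 + A) ^ 2

/-- Everything that is to be checked on a vector. -/
structure Holds (V : Vec) (ρ : ℝ → ℝ → ℝ) : Prop where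
  fit : V.Fit
  interior : ∀ f g A, InBox f g A → qLev f + qLev g ≤ 2 → ∀ H m : ℝ,
    target ρ f g A ≤ intForm V f g A A H m
  pair : ∀ f g A, InBox f g A → qLev f + qLev g ≤ 2 → ∀ T τ : ℝ, 0 ≤ pairForm V f g A A T τ
  hess_nonneg : ∀ f g A, InBox f g A → qLev f + qLev g ≤ 2 →
    0 ≤ V.Y2.val (f - g) (2 - f - g) A
  contact : ∀ f g A al be, InBox f g A → qLev f + qLev g = 2 → ContactCase f g al be →
    ∀ H φ : ℝ, 0 ≤ φ → target ρ f g A ≤ contactForm V f g A A al be H φ
  mult_nonneg : ∀ f g A, InBox f g A → qLev f + qLev g = 2 →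
    0 ≤ V.Y3.val (f - g) (2 - f - g) A ∧ 0 ≤ V.Y4.val (f - g) (2 - f - g) A

/-- The requirements on the weight of the right hand side. -/
structure GoodTarget (ρ : ℝ → ℝ → ℝ) (c : ℝ) : Prop where
  cont : Continuous fun z : ℝ × ℝ => ρ z.1 z.2
  nonneg : ∀ f g, 0 ≤ ρ f g
  band : c ≤ 3 / 5
  zeros : ∀ f g, 0 ≤ f → 0 ≤ g → qLev f + qLev g ≤ 2 → ρ f g = 0 → f ≤ c ∨ g ≤ c ∨ f = g

end

end Vale.Agent.P211.Cert
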