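import Mathlib
import Vale.Agent.P211.Analytic.Passage.Jet
import Vale.Agent.P211.Cert.Conditions

/-!
P211, the interface between the real-variable certificate and the analysis: a pointwise inequality
at level two for the constraint `qLev`, with loss `κ` and the penalty force bounded by `Φ`.
-/

open Matrix
open scoped ContDiff

namespace Vale.Agent.P211.Cert

open Vale.Agent.P211.Analytic (pt part divJet mdot)

noncomputable section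

/-- The Laplacian of `qLev f + qLev g` on a jet of unit scale. -/
def levelJetQ (s t : ℝ) (a b : Fin 4 → ℝ) (H K : Matrix (Fin 4) (Fin 4) ℝ) : ℝ :=
  3 * (eLev s * H.trace + eLev t * K.trace + eLev₁ s * (a ⬝ᵥ a) + eLev₁ t * (b ⬝ᵥ b))

/-- What the exact equations say on the contact set. -/
def ForcesQ (φ s t p p' : ℝ) : Prop :=
  0 ≤ p ∧ 0 ≤ p' ∧ p ≤ φ * eLev s ∧ p' ≤ φ * eLev t ∧ (p = φ * eLev s ∨ p' = φ * eLev t) ∧
    (2 < s ^ 3 → p = φ * eLev s) ∧ (2 < t ^ 3 → p' = φ * eLev t)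

/-- The pointwise certificate. -/
structure Pointwise (G : ℝ → ℝ → ℝ) (κ Φ : ℝ) where
  /-- The coefficients. -/
  P : Fin 6 → (Fin 5 → ℝ) → ℝ
  /-- The multiplier of the constraint: its constant part. -/
  k : (Fin 5 → ℝ) → ℝ
  /-- Its slope in the penalty force. -/
  k₁ : (Fin 5 → ℝ) → ℝ
  smooth_P : ∀ i, ContDiff ℝ ∞ (P i)
  smooth_k : ContDiff ℝ ∞ k
  smooth_k₁ : ContDiff ℝ ∞ k₁
  growth : ∃ (n : ℕ) (B : ℝ), ∀ (s t : ℝ) (a b : Fin 4 → ℝ),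
    s ∈ Set.Icc (-1 : ℝ) 3 → t ∈ Set.Icc (-1 : ℝ) 3 →
      (∀ i, |P i (pt s t a b)| ≤ B * (1 + (a ⬝ᵥ a + b ⬝ᵥ b)) ^ n ∧
        ∀ j, |part (P i) j (pt s t a b)| ≤ B * (1 + (a ⬝ᵥ a + b ⬝ᵥ b)) ^ n) ∧
      |k (pt s t a b)| ≤ B * (1 + (a ⬝ᵥ a + b ⬝ᵥ b)) ^ n ∧
      |k₁ (pt s t a b)| ≤ B * (1 + (a ⬝ᵥ a + b ⬝ᵥ b)) ^ n
  nonneg_k : ∀ (s t : ℝ) (a b : Fin 4 → ℝ), s ∈ Set.Icc (0 : ℝ) (141 / 100) →
    t ∈ Set.Icc (0 : ℝ) (141 / 100) → qLev s + qLev t = 2 →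
      0 ≤ k (pt s t a b) ∧ 0 ≤ k₁ (pt s t a b)
  interior : ∀ (s t : ℝ) (a b : Fin 4 → ℝ) (H K : Matrix (Fin 4) (Fin 4) ℝ),
    H.IsSymm → K.IsSymm → s ∈ Set.Icc (0 : ℝ) (141 / 100) → t ∈ Set.Icc (0 : ℝ) (141 / 100) →
    qLev s + qLev t ≤ 2 → H.trace = reactT s t → K.trace = reactT t s →
      G s t ≤ divJet P 1 s t a b H K + κ
  contact : ∀ (φ s t p p' : ℝ) (a b : Fin 4 → ℝ) (H K : Matrix (Fin 4) (Fin 4) ℝ),
    H.IsSymm → K.IsSymm → s ∈ Set.Icc (0 : ℝ) (141 / 100) → t ∈ Set.Icc (0 : ℝ) (141 / 100) →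
    qLev s + qLev t = 2 → eLev s • a + eLev t • b = 0 → φ ∈ Set.Icc 0 Φ →
    ForcesQ φ s t p p' → H.trace = reactF s + p → K.trace = reactF t + p' →
      G s t ≤ divJet P 1 s t a b H K +
        (k (pt s t a b) + φ * k₁ (pt s t a b)) * levelJetQ s t a b H K + κ

/-- The weight tested by the analysis. -/
def gateWeight (ρ : ℝ → ℝ → ℝ) (f g : ℝ) : ℝ := ρ f g * (f - g) ^ 8 / 150000

end

end Vale.Agent.P211.Cert
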