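import Mathlib
import Vale.Agent.P211.Analytic.Passage.Jet

/-!
P211, jets: the divergence of the three fields `c₀ d(f-g) + c₁ d(f+g) + c₂ (H d(f-g) - Δ(f-g) d(f-g))`
with coefficients in `(f, g, |d(f-g)|²)`, and its lower bound by a form in four unknowns.
-/

open Matrix
open scoped ContDiff

namespace Vale.Agent.P211.Cert

open Vale.Agent.P211.Analytic

noncomputable section

/-- The six coefficients of the three fields. -/
def fields (c : Fin 3 → (Fin 5 → ℝ) → ℝ) : Fin 6 → (Fin 5 → ℝ) → ℝ :=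
  ![fun y => c 0 y + c 1 y, fun y => c 1 y - c 0 y, c 2, c 2, fun y => -c 2 y, fun y => -c 2 y]

lemma contDiff_fields {c : Fin 3 → (Fin 5 → ℝ) → ℝ} (h : ∀ i, ContDiff ℝ ∞ (c i)) (i : Fin 6) :
    ContDiff ℝ ∞ (fields c i) := by
  fin_cases i
  exacts [(h 0).add (h 1), (h 1).sub (h 0), h 2, h 2, (h 2).neg, (h 2).neg]

lemma part_fields {c : Fin 3 → (Fin 5 → ℝ) → ℝ} (h : ∀ i, ContDiff ℝ ∞ (c i)) (j : Fin 5)
    (y : Fin 5 → ℝ) :
    part (fields c 0) j y = part (c 0) j y + part (c 1) j y ∧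
    part (fields c 1) j y = part (c 1) j y - part (c 0) j y ∧
    part (fields c 2) j y = part (c 2) j y ∧ part (fields c 3) j y = part (c 2) j y ∧
    part (fields c 4) j y = -part (c 2) j y ∧ part (fields c 5) j y = -part (c 2) j y := by
  have d : ∀ i, DifferentiableAt ℝ (c i) y := fun i => (h i).differentiable (by simp) y
  simp only [part, fields, Matrix.cons_val]
  rw [fderiv_fun_add (d 0) (d 1), fderiv_fun_sub (d 1) (d 0), fderiv_fun_neg]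
  simp

/-- The divergence of the three fields in the differential and Hessian of `f - g` and of `f + g`.
`W`, `U`, `D` are the derivatives in `f - g`, in `f + g` and in `|d(f-g)|²`. -/
theorem divJet_fields {c : Fin 3 → (Fin 5 → ℝ) → ℝ} (hc : ∀ i, ContDiff ℝ ∞ (c i)) {s t : ℝ}
    {a b : Fin 4 → ℝ} {W U D : Fin 3 → ℝ}
    (h0 : ∀ i, part (c i) 0 (pt s t a b) = U i + W i)
    (h1 : ∀ i, part (c i) 1 (pt s t a b) = U i - W i)
    (h2 : ∀ i, part (c i) 2 (pt s t a b) = D i)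
    (h3 : ∀ i, part (c i) 3 (pt s t a b) = D i)
    (h4 : ∀ i, part (c i) 4 (pt s t a b) = -2 * D i) (H K : Matrix (Fin 4) (Fin 4) ℝ) :
    divJet (fields c) 1 s t a b H K =
      c 0 (pt s t a b) * (H - K).trace + c 1 (pt s t a b) * (H.trace + K.trace) +
      c 2 (pt s t a b) *
        (mdot (H - K) (H - K) - (H - K).trace ^ 2 + 3 * ((a - b) ⬝ᵥ (a - b))) +
      (W 0 * ((a - b) ⬝ᵥ (a - b)) + U 0 * ((a + b) ⬝ᵥ (a - b)) +
        2 * D 0 * (((H - K) *ᵥ (a - b)) ⬝ᵥ (a - b))) +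
      (W 1 * ((a + b) ⬝ᵥ (a - b)) + U 1 * ((a + b) ⬝ᵥ (a + b)) +
        2 * D 1 * (((H - K) *ᵥ (a - b)) ⬝ᵥ (a + b))) +
      (W 2 * (((H - K) *ᵥ (a - b)) ⬝ᵥ (a - b) - (H - K).trace * ((a - b) ⬝ᵥ (a - b))) +
        U 2 * (((H - K) *ᵥ (a - b)) ⬝ᵥ (a + b) - (H - K).trace * ((a + b) ⬝ᵥ (a - b))) +
        2 * D 2 * (((H - K) *ᵥ (a - b)) ⬝ᵥ ((H - K) *ᵥ (a - b)) -
          (H - K).trace * (((H - K) *ᵥ (a - b)) ⬝ᵥ (a - b)))) := by
  have hp := fun j => part_fields hc j (pt s t a b)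
  simp only [divJet, divTerm, diffJet, Fin.sum_univ_six, (hp 0).1, (hp 1).1, (hp 2).1, (hp 3).1,
    (hp 4).1, (hp 0).2.1, (hp 1).2.1, (hp 2).2.1, (hp 3).2.1, (hp 4).2.1, (hp 0).2.2.1,
    (hp 1).2.2.1, (hp 2).2.2.1, (hp 3).2.2.1, (hp 4).2.2.1, (hp 0).2.2.2.1, (hp 1).2.2.2.1,
    (hp 2).2.2.2.1, (hp 3).2.2.2.1, (hp 4).2.2.2.1, (hp 0).2.2.2.2.1, (hp 1).2.2.2.2.1,
    (hp 2).2.2.2.2.1, (hp 3).2.2.2.2.1, (hp 4).2.2.2.2.1, (hp 0).2.2.2.2.2, (hp 1).2.2.2.2.2,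
    (hp 2).2.2.2.2.2, (hp 3).2.2.2.2.2, (hp 4).2.2.2.2.2, h0, h1, h2, h3, h4]
  have hm : mdot (H - K) (H - K) = mdot H H - 2 * mdot H K + mdot K K := by
    simp only [mdot, Finset.mul_sum, ← Finset.sum_sub_distrib, ← Finset.sum_add_distrib,
      Matrix.sub_apply]
    exact Finset.sum_congr rfl fun i _ => Finset.sum_congr rfl fun j _ => by ring
  rw [hm]
  simp only [fields, scalarPart, vecPart, Matrix.cons_val, Matrix.trace_sub, sub_mulVec, mulVec_sub,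
    dotProduct_sub, sub_dotProduct, add_dotProduct, dotProduct_add, smul_dotProduct,
    dotProduct_smul, smul_eq_mul, one_smul, neg_mul]
  simp only [dotProduct_comm b a, dotProduct_comm (K *ᵥ a) (H *ᵥ a),
    dotProduct_comm (K *ᵥ b) (H *ᵥ b), dotProduct_comm (H *ᵥ b) (H *ᵥ a),
    dotProduct_comm (K *ᵥ b) (K *ᵥ a), dotProduct_comm (K *ᵥ a) (H *ᵥ b),
    dotProduct_comm (K *ᵥ b) (H *ᵥ a), dotProduct_comm a (H *ᵥ a), dotProduct_comm a (H *ᵥ b),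
    dotProduct_comm a (K *ᵥ a), dotProduct_comm a (K *ᵥ b), dotProduct_comm b (H *ᵥ a),
    dotProduct_comm b (H *ᵥ b), dotProduct_comm b (K *ᵥ a), dotProduct_comm b (K *ᵥ b)]
  ring

end

end Vale.Agent.P211.Cert
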