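import Mathlib
import Vale.Agent.P211.Cert.Conditions

/-!
P211, numerators of the certificate class: derivatives along a curve, the bound at the singular
point and the bound for large `A`.
-/

namespace Vale.Agent.P211.Cert

noncomputable section

variable {w s A : ℝ → ℝ} {dw ds dA r : ℝ}

lemma Term.hasDerivAt (T : Term) (hw : HasDerivAt w dw r) (hs : HasDerivAt s ds r)
    (hA : HasDerivAt A dA r) :
    HasDerivAt (fun x => T.val (w x) (s x) (A x))
      (T.valW (w r) (s r) (A r) * dw + T.valS (w r) (s r) (A r) * ds +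
        T.valA (w r) (s r) (A r) * dA) r := by
  have h := ((((hA.fun_pow T.a).const_mul (T.c : ℝ)).fun_mul (hw.fun_pow T.b)).fun_mul
    (hs.fun_pow T.j)).fun_mul ((hA.const_add 1).fun_pow T.m)
  refine HasDerivAt.congr_deriv h ?_
  simp only [Term.valW, Term.valS, Term.valA]
  ring

lemma Num.hasDerivAt (Y : Num) (hw : HasDerivAt w dw r) (hs : HasDerivAt s ds r)
    (hA : HasDerivAt A dA r) :
    HasDerivAt (fun x => Y.val (w x) (s x) (A x))
      (Y.valW (w r) (s r) (A r) * dw + Y.valS (w r) (s r) (A r) * ds +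
        Y.valA (w r) (s r) (A r) * dA) r := by
  induction Y with
  | nil =>
    simp only [Num.val, Num.valW, Num.valS, Num.valA, List.map_nil, List.sum_nil, zero_mul,
      add_zero]
    exact hasDerivAt_const r (0 : ℝ)
  | cons T Y ih =>
    simp only [Num.val, Num.valW, Num.valS, Num.valA, List.map_cons, List.sum_cons]
    exact ((T.hasDerivAt hw hs hA).fun_add ih).congr_deriv (by
      simp only [Num.valW, Num.valS, Num.valA]; ring)

lemma Num.continuous_val (Y : Num) :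
    Continuous fun z : ℝ × ℝ × ℝ => Y.val z.1 z.2.1 z.2.2 := by
  induction Y with
  | nil => simp only [Num.val, List.map_nil, List.sum_nil]; exact continuous_const
  | cons T Y ih =>
    simp only [Num.val, List.map_cons, List.sum_cons]
    refine Continuous.add ?_ ih
    unfold Term.val
    fun_prop

/-- At weight at least four a numerator is of second order at the singular point. -/
lemma Num.abs_val_le_sq {Y : Num} (hY : ∀ T ∈ Y, T.Fit) :
    ∃ C : ℝ, 0 ≤ C ∧ ∀ w s A B : ℝ, 0 ≤ A → 0 ≤ s → B = A + w ^ 2 + kap * s → B ≤ 1 →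
      |Y.val w s A| ≤ C * B ^ 2 := by
  induction Y with
  | nil => exact ⟨0, le_rfl, fun w s A B _ _ _ _ => by simp [Num.val]⟩
  | cons T Y ih =>
    obtain ⟨C, hC, h⟩ := ih fun U hU => hY U (List.mem_cons_of_mem _ hU)
    refine ⟨|(T.c : ℝ)| * 2 ^ T.m + C, by positivity, fun w s A B hA hs hB hB1 => ?_⟩
    have h' := h w s A B hA hs hB hB1
    have hk := kap_ge
    have hks : s ≤ kap * s := le_mul_of_one_le_left hs hk
    have hB0 : 0 ≤ B := by rw [hB]; positivity
    set x := √B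
    have hx0 : 0 ≤ x := Real.sqrt_nonneg _
    have hx2 : x ^ 2 = B := Real.sq_sqrt hB0
    have hx1 : x ≤ 1 := Real.sqrt_le_one.2 hB1
    have eA : |A| ≤ x ^ 2 := by
      rw [abs_of_nonneg hA, hx2, hB]; nlinarith [sq_nonneg w]
    have ew : |w| ≤ x := by
      refine Real.le_sqrt_of_sq_le ?_
      rw [sq_abs, hB]; linarith
    have es : |s| ≤ x ^ 2 := by
      rw [abs_of_nonneg hs, hx2, hB]; nlinarith [sq_nonneg w]
    have e1 : |1 + A| ≤ 2 := by
      rw [abs_of_nonneg (by linarith)]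
      linarith [le_abs_self A, pow_le_one₀ (n := 2) hx0 hx1]
    have key : |T.val w s A| ≤ |(T.c : ℝ)| * 2 ^ T.m * B ^ 2 := by
      rw [Term.val, abs_mul, abs_mul, abs_mul, abs_mul, abs_pow, abs_pow, abs_pow, abs_pow]
      calc |(T.c : ℝ)| * |A| ^ T.a * |w| ^ T.b * |s| ^ T.j * |1 + A| ^ T.m
          ≤ |(T.c : ℝ)| * (x ^ 2) ^ T.a * x ^ T.b * (x ^ 2) ^ T.j * 2 ^ T.m := by gcongr
        _ = |(T.c : ℝ)| * 2 ^ T.m * x ^ (2 * T.a + T.b + 2 * T.j) := by
          rw [pow_add, pow_add, pow_mul, pow_mul]; ring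
        _ ≤ |(T.c : ℝ)| * 2 ^ T.m * x ^ 4 := mul_le_mul_of_nonneg_left
          (pow_le_pow_of_le_one hx0 hx1 (hY T List.mem_cons_self).1) (by positivity)
        _ = _ := by rw [← hx2]; ring
    simp only [Num.val, List.map_cons, List.sum_cons] at h' ⊢
    refine (abs_add_le _ _).trans ?_
    linarith

/-- A numerator grows at most like the fourth power of `1 + A`. -/
lemma Num.abs_val_le_pow {Y : Num} (hY : ∀ T ∈ Y, T.Fit) :
    ∃ C : ℝ, 0 ≤ C ∧ ∀ w s A : ℝ, 0 ≤ A → |w| ≤ 2 → |s| ≤ 2 →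
      |Y.val w s A| ≤ C * (1 + A) ^ 4 := by
  induction Y with
  | nil => exact ⟨0, le_rfl, fun w s A _ _ _ => by simp [Num.val]⟩
  | cons T Y ih =>
    obtain ⟨C, hC, h⟩ := ih fun U hU => hY U (List.mem_cons_of_mem _ hU)
    refine ⟨|(T.c : ℝ)| * 2 ^ T.b * 2 ^ T.j + C, by positivity, fun w s A hA hw hs => ?_⟩
    have h' := h w s A hA hw hs
    have e : |A| ≤ 1 + A := by rw [abs_of_nonneg hA]; linarith
    have key : |T.val w s A| ≤ |(T.c : ℝ)| * 2 ^ T.b * 2 ^ T.j * (1 + A) ^ 4 := by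
      rw [Term.val, abs_mul, abs_mul, abs_mul, abs_mul, abs_pow, abs_pow, abs_pow, abs_pow,
        abs_of_nonneg (show 0 ≤ 1 + A by linarith)]
      calc |(T.c : ℝ)| * |A| ^ T.a * |w| ^ T.b * |s| ^ T.j * (1 + A) ^ T.m
          ≤ |(T.c : ℝ)| * (1 + A) ^ T.a * 2 ^ T.b * 2 ^ T.j * (1 + A) ^ T.m := by gcongr
        _ = |(T.c : ℝ)| * 2 ^ T.b * 2 ^ T.j * (1 + A) ^ (T.a + T.m) := by rw [pow_add]; ring
        _ ≤ _ := mul_le_mul_of_nonneg_left
          (pow_le_pow_right₀ (by linarith) (hY T List.mem_cons_self).2) (by positivity)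
    simp only [Num.val, List.map_cons, List.sum_cons] at h' ⊢
    refine (abs_add_le _ _).trans ?_
    linarith

lemma Vec.fit_mem {V : Vec} (h : V.Fit) :
    (∀ T ∈ V.Y0, T.Fit) ∧ (∀ T ∈ V.Y1, T.Fit) ∧ (∀ T ∈ V.Y2, T.Fit) ∧ (∀ T ∈ V.Y3, T.Fit) ∧
      ∀ T ∈ V.Y4, T.Fit :=
  ⟨fun T hT => h T (by simp [hT]), fun T hT => h T (by simp [hT]), fun T hT => h T (by simp [hT]),
    fun T hT => h T (by simp [hT]), fun T hT => h T (by simp [hT])⟩

end

end Vale.Agent.P211.Cert
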