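import Mathlib
import Vale.Agent.P211.Cert.Numer
import Vale.Agent.P211.Cert.Jet

/-!
P211, the coefficients of the fields: the class evaluated at `A + θ`, with the two arguments that
must stay above zero continued smoothly, so that everything is smooth on the whole space.
-/

open scoped ContDiff

namespace Vale.Agent.P211.Cert

open Vale.Agent.P211.Analytic (part pt)

noncomputable section

/-- The identity on the nonnegative axis, never below `-τ`. -/
def keep (τ x : ℝ) : ℝ := x * Real.smoothTransition (x / τ + 1)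

lemma contDiff_keep (τ : ℝ) : ContDiff ℝ ∞ (keep τ) :=
  contDiff_id.mul (Real.smoothTransition.contDiff.comp
    (by fun_prop : ContDiff ℝ ∞ fun x : ℝ => x / τ + 1))

lemma keep_eq {τ x : ℝ} (hτ : 0 < τ) (hx : 0 ≤ x) : keep τ x = x := by
  have : 0 ≤ x / τ := by positivity
  rw [keep, Real.smoothTransition.one_of_one_le (by linarith), mul_one]

lemma keep_ge {τ : ℝ} (hτ : 0 < τ) (x : ℝ) : -τ ≤ keep τ x ∧ |keep τ x| ≤ |x| := by
  have h0 := Real.smoothTransition.nonneg (x / τ + 1)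
  have h1 := Real.smoothTransition.le_one (x / τ + 1)
  refine ⟨?_, ?_⟩
  · rcases le_or_gt x (-τ) with h | h
    · rw [keep, Real.smoothTransition.zero_of_nonpos, mul_zero]
      · linarith
      · have : x / τ ≤ -1 := by rw [div_le_iff₀ hτ]; linarith
        linarith
    · rw [keep]
      rcases le_total 0 x with hx | hx
      · linarith [mul_nonneg hx h0]
      · nlinarith [mul_le_mul_of_nonneg_left h1 (neg_nonneg.2 hx)]
  · rw [keep, abs_mul, abs_of_nonneg h0]
    exact mul_le_of_le_one_right (abs_nonneg _) h1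

lemma deriv_keep {τ x : ℝ} (hτ : 0 < τ) (hx : 0 ≤ x) : HasDerivAt (keep τ) 1 x := by
  have h := ((contDiff_keep τ).differentiable (by simp) x).hasDerivAt
  have h' : HasDerivWithinAt (keep τ) 1 (Set.Ici x) x :=
    (hasDerivWithinAt_id x _).congr (fun r hr => keep_eq hτ (hx.trans hr)) (keep_eq hτ hx)
  rwa [(uniqueDiffWithinAt_Ici x).eq_deriv _ h.hasDerivWithinAt h'] at h

/-- A coefficient as a function of `w`, `σ` and `A`. -/
def quot (p : ℝ) (Y : Num) (w s A : ℝ) : ℝ :=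
  Y.val w s A * (A + w ^ 2 + kap * s) ^ (-p) / (1 + A) ^ 2

/-- Its derivative in `w`. -/
def quotW (p : ℝ) (Y : Num) (w s A : ℝ) : ℝ :=
  (Y.valW w s A * (A + w ^ 2 + kap * s) ^ (-p) -
    p * Y.val w s A * (2 * w) * (A + w ^ 2 + kap * s) ^ (-p - 1)) / (1 + A) ^ 2

/-- Its derivative in `σ`. -/
def quotS (p : ℝ) (Y : Num) (w s A : ℝ) : ℝ :=
  (Y.valS w s A * (A + w ^ 2 + kap * s) ^ (-p) -
    p * Y.val w s A * kap * (A + w ^ 2 + kap * s) ^ (-p - 1)) / (1 + A) ^ 2

/-- Its derivative in `A`. -/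
def quotA (p : ℝ) (Y : Num) (w s A : ℝ) : ℝ :=
  (Y.valA w s A * (A + w ^ 2 + kap * s) ^ (-p) -
      p * Y.val w s A * (A + w ^ 2 + kap * s) ^ (-p - 1)) / (1 + A) ^ 2 -
    2 * Y.val w s A * (A + w ^ 2 + kap * s) ^ (-p) / (1 + A) ^ 3

lemma hasDerivAt_quot (p : ℝ) (Y : Num) {w s A : ℝ → ℝ} {dw ds dA r : ℝ}
    (hw : HasDerivAt w dw r) (hs : HasDerivAt s ds r) (hA : HasDerivAt A dA r)
    (hB : 0 < A r + w r ^ 2 + kap * s r) (h1 : 0 < 1 + A r) :
    HasDerivAt (fun x => quot p Y (w x) (s x) (A x))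
      (quotW p Y (w r) (s r) (A r) * dw + quotS p Y (w r) (s r) (A r) * ds +
        quotA p Y (w r) (s r) (A r) * dA) r := by
  have h := ((Y.hasDerivAt hw hs hA).fun_mul
    (((hA.fun_add (hw.fun_pow 2)).fun_add (hs.const_mul kap)).rpow_const (p := -p)
      (Or.inl hB.ne'))).fun_div ((hA.const_add 1).fun_pow 2) (pow_ne_zero 2 h1.ne')
  refine HasDerivAt.congr_deriv h ?_
  simp only [quotW, quotS, quotA]
  field_simp
  ring

/-- The first regularised argument. -/
def argA (θ : ℝ) (y : Fin 5 → ℝ) : ℝ := keep (θ / 8) (y 2 + y 3 - 2 * y 4) + θ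

/-- The second. -/
def argS (θ : ℝ) (y : Fin 5 → ℝ) : ℝ := keep (θ / (8 * kap)) (2 - y 0 - y 1)

/-- A coefficient on the space of the five scalars. -/
def coef (p : ℝ) (Y : Num) (θ : ℝ) (y : Fin 5 → ℝ) : ℝ :=
  quot p Y (y 0 - y 1) (argS θ y) (argA θ y)

lemma arg_pos {θ : ℝ} (hθ : 0 < θ) (y : Fin 5 → ℝ) :
    7 * θ / 8 ≤ argA θ y ∧ θ / 2 ≤ argA θ y + (y 0 - y 1) ^ 2 + kap * argS θ y := by
  have h1 := (keep_ge (show 0 < θ / 8 by positivity) (y 2 + y 3 - 2 * y 4)).1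
  have hk := kap_ge
  have hτ : 0 < θ / (8 * kap) := by positivity
  have h2 := mul_le_mul_of_nonneg_left (keep_ge hτ (2 - y 0 - y 1)).1 (show 0 ≤ kap by linarith)
  rw [mul_neg, show kap * (θ / (8 * kap)) = θ / 8 by field_simp] at h2
  unfold argA argS
  exact ⟨by linarith, by linarith [sq_nonneg (y 0 - y 1)]⟩

lemma contDiff_arg (θ : ℝ) : ContDiff ℝ ∞ (argA θ) ∧ ContDiff ℝ ∞ (argS θ) :=
  ⟨((contDiff_keep _).comp (by fun_prop)).add contDiff_const,
    (contDiff_keep _).comp (by fun_prop)⟩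

lemma contDiff_coef (p : ℝ) (Y : Num) {θ : ℝ} (hθ : 0 < θ) : ContDiff ℝ ∞ (coef p Y θ) := by
  have hB : ∀ y, 0 < argA θ y + (y 0 - y 1) ^ 2 + kap * argS θ y := fun y => by
    linarith [(arg_pos hθ y).2]
  have h1 : ∀ y, 0 < 1 + argA θ y := fun y => by linarith [(arg_pos hθ y).1]
  obtain ⟨hA, hS⟩ := contDiff_arg θ
  have hw : ContDiff ℝ ∞ fun y : Fin 5 → ℝ => y 0 - y 1 := by fun_prop
  have hY : ContDiff ℝ ∞ fun y : Fin 5 → ℝ => Y.val (y 0 - y 1) (argS θ y) (argA θ y) := by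
    induction Y with
    | nil => simp only [Num.val, List.map_nil, List.sum_nil]; exact contDiff_const
    | cons T Y ih =>
      simp only [Num.val, List.map_cons, List.sum_cons]
      refine ContDiff.add ?_ ih
      unfold Term.val
      fun_prop
  exact (hY.mul (((hA.add (hw.pow 2)).add ((contDiff_const (c := kap)).mul hS)).rpow_const_of_ne
    fun y => (hB y).ne')).div ((contDiff_const.add hA).pow 2) fun y => pow_ne_zero 2 (h1 y).ne'

/-- A partial derivative of a coefficient, by the chain rule. -/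
lemma part_coef (p : ℝ) (Y : Num) {θ : ℝ} (hθ : 0 < θ) (y : Fin 5 → ℝ) (i : Fin 5) :
    part (coef p Y θ) i y =
      quotW p Y (y 0 - y 1) (argS θ y) (argA θ y) *
          ((Pi.single i 1 : Fin 5 → ℝ) 0 - (Pi.single i 1 : Fin 5 → ℝ) 1) +
        quotS p Y (y 0 - y 1) (argS θ y) (argA θ y) *
          (deriv (keep (θ / (8 * kap))) (2 - y 0 - y 1) *
            (-(Pi.single i 1 : Fin 5 → ℝ) 0 - (Pi.single i 1 : Fin 5 → ℝ) 1)) +
        quotA p Y (y 0 - y 1) (argS θ y) (argA θ y) *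
          (deriv (keep (θ / 8)) (y 2 + y 3 - 2 * y 4) *
            ((Pi.single i 1 : Fin 5 → ℝ) 2 + (Pi.single i 1 : Fin 5 → ℝ) 3 -
              2 * (Pi.single i 1 : Fin 5 → ℝ) 4)) := by
  set v : Fin 5 → ℝ := Pi.single i 1
  set line : ℝ → Fin 5 → ℝ := fun r => y + r • v with hline
  have hl : HasDerivAt line v 0 := by
    simpa [hline] using ((hasDerivAt_id' (0 : ℝ)).smul_const v).const_add y
  have hl0 : line 0 = y := by simp [line]
  have hc : ∀ j, HasDerivAt (fun r => line r j) (v j) 0 := fun j => (hasDerivAt_pi.1 hl) j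
  have hk : ∀ (τ : ℝ) (x : ℝ → ℝ) (dx : ℝ), HasDerivAt x dx 0 →
      HasDerivAt (fun r => keep τ (x r)) (deriv (keep τ) (x 0) * dx) 0 := fun τ x dx hx =>
    ((contDiff_keep _).differentiable (by simp) (x 0)).hasDerivAt.comp 0 hx
  have hA := (hk (θ / 8) _ _ (((hc 2).fun_add (hc 3)).fun_sub ((hc 4).const_mul 2))).add_const θ
  have hS := hk (θ / (8 * kap)) _ _ (((hc 0).const_sub 2).fun_sub (hc 1))
  have hB := (arg_pos hθ y).2
  have h1 := (arg_pos hθ y).1
  have h2 := hasDerivAt_quot p Y ((hc 0).fun_sub (hc 1)) hS hA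
    (by simp only [hl0]; simp only [argA, argS] at hB; linarith)
    (by simp only [hl0]; simp only [argA] at h1; linarith)
  have h3 : HasDerivAt (fun r => coef p Y θ (line r)) (part (coef p Y θ) i y) 0 := by
    have := ((contDiff_coef p Y hθ).differentiable (by simp) (line 0)).hasFDerivAt.comp_hasDerivAt
      (0 : ℝ) hl
    rw [hl0] at this
    exact this
  have := h3.unique h2
  simp only [hl0] at this
  exact this

/-- On the domain the arguments are the intended ones. -/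
lemma arg_eq {θ : ℝ} (hθ : 0 < θ) {s t : ℝ} (a b : Fin 4 → ℝ) (hst : s + t ≤ 2) :
    argA θ (pt s t a b) = (a - b) ⬝ᵥ (a - b) + θ ∧ argS θ (pt s t a b) = 2 - s - t := by
  have e : a ⬝ᵥ a + b ⬝ᵥ b - 2 * (a ⬝ᵥ b) = (a - b) ⬝ᵥ (a - b) := by
    simp only [sub_dotProduct, dotProduct_sub, dotProduct_comm b a]; ring
  have := kap_ge
  refine ⟨?_, keep_eq (by positivity) (by simp [pt]; linarith)⟩
  simp only [argA, pt, Matrix.cons_val, e]
  rw [keep_eq (by positivity) (Vale.Agent.P211.Analytic.dot_self_nonneg _)]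

/-- Value and derivatives of a coefficient on the domain. -/
lemma coef_data (p : ℝ) (Y : Num) {θ : ℝ} (hθ : 0 < θ) {s t : ℝ} (a b : Fin 4 → ℝ)
    (hst : s + t ≤ 2) :
    coef p Y θ (pt s t a b) = quot p Y (s - t) (2 - s - t) ((a - b) ⬝ᵥ (a - b) + θ) ∧
    part (coef p Y θ) 0 (pt s t a b) =
      -quotS p Y (s - t) (2 - s - t) ((a - b) ⬝ᵥ (a - b) + θ) +
        quotW p Y (s - t) (2 - s - t) ((a - b) ⬝ᵥ (a - b) + θ) ∧
    part (coef p Y θ) 1 (pt s t a b) =
      -quotS p Y (s - t) (2 - s - t) ((a - b) ⬝ᵥ (a - b) + θ) -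
        quotW p Y (s - t) (2 - s - t) ((a - b) ⬝ᵥ (a - b) + θ) ∧
    part (coef p Y θ) 2 (pt s t a b) = quotA p Y (s - t) (2 - s - t) ((a - b) ⬝ᵥ (a - b) + θ) ∧
    part (coef p Y θ) 3 (pt s t a b) = quotA p Y (s - t) (2 - s - t) ((a - b) ⬝ᵥ (a - b) + θ) ∧
    part (coef p Y θ) 4 (pt s t a b) =
      -2 * quotA p Y (s - t) (2 - s - t) ((a - b) ⬝ᵥ (a - b) + θ) := by
  obtain ⟨eA, eS⟩ := arg_eq hθ a b hst
  have e : a ⬝ᵥ a + b ⬝ᵥ b - 2 * (a ⬝ᵥ b) = (a - b) ⬝ᵥ (a - b) := by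
    simp only [sub_dotProduct, dotProduct_sub, dotProduct_comm b a]; ring
  have dA : deriv (keep (θ / 8)) ((a - b) ⬝ᵥ (a - b)) = 1 :=
    (deriv_keep (by positivity) (Vale.Agent.P211.Analytic.dot_self_nonneg _)).deriv
  have := kap_ge
  have dS : deriv (keep (θ / (8 * kap))) (2 - s - t) = 1 :=
    (deriv_keep (by positivity) (by linarith)).deriv
  simp only [coef, part_coef p Y hθ, eA, eS]
  simp only [pt, Matrix.cons_val, e, dA, dS, one_mul]
  refine ⟨trivial, ?_, ?_, ?_, ?_, ?_⟩ <;> simp <;> ring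

end

end Vale.Agent.P211.Cert
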