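import Mathlib
import Vale.Agent.P211.Cert.Conditions

/-!
P211, exchanging the two unknowns: the first numerator is odd in `w`, the others are even, so it is
enough to check the conditions where `g ≤ f`.
-/

namespace Vale.Agent.P211.Cert

/-- The parities in `w` that make the class invariant under the exchange. -/
def Vec.Parity (V : Vec) : Prop :=
  (∀ T ∈ V.Y0, T.b % 2 = 1) ∧ ∀ T ∈ V.Y1 ++ V.Y2 ++ V.Y3 ++ V.Y4, T.b % 2 = 0

instance (V : Vec) : Decidable V.Parity := by unfold Vec.Parity; infer_instance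

noncomputable section

lemma Num.val_neg {Y : Num} {p : ℕ} (hY : ∀ T ∈ Y, T.b % 2 = p) (w s A : ℝ) :
    Y.val (-w) s A = (-1) ^ p * Y.val w s A ∧ Y.valA (-w) s A = (-1) ^ p * Y.valA w s A ∧
      Y.valS (-w) s A = (-1) ^ p * Y.valS w s A ∧
      Y.valW (-w) s A = (-1) ^ (p + 1) * Y.valW w s A := by
  induction Y with
  | nil => simp [Num.val, Num.valA, Num.valS, Num.valW]
  | cons T Y ih =>
    obtain ⟨h1, h2, h3, h4⟩ := ih fun U hU => hY U (List.mem_cons_of_mem _ hU)
    have hb : T.b % 2 = p := hY T (by simp)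
    have e : ((-1 : ℝ)) ^ T.b = (-1) ^ p := by rw [neg_one_pow_eq_pow_mod_two, hb]
    have e0 : (-w) ^ T.b = (-1) ^ p * w ^ T.b := by rw [neg_pow, e]
    have e1 : (T.b : ℝ) * (-w) ^ (T.b - 1) = (-1) ^ (p + 1) * (T.b * w ^ (T.b - 1)) := by
      rcases Nat.eq_zero_or_pos T.b with h | h
      · simp [h]
      · have e2 : ((-1 : ℝ)) ^ (T.b - 1) = (-1) ^ (p + 1) := by
          rw [pow_succ, ← e]
          conv_rhs => rw [show T.b = (T.b - 1) + 1 by omega, pow_succ]
          ring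
        rw [neg_pow, e2]; ring
    simp only [Num.val, Num.valA, Num.valS, Num.valW, List.map_cons, List.sum_cons] at h1 h2 h3 h4 ⊢
    rw [h1, h2, h3, h4, Term.val, Term.valA, Term.valS, Term.valW, e0, e1]
    refine ⟨?_, ?_, ?_, ?_⟩ <;> simp only [Term.val, Term.valA, Term.valS, Term.valW] <;> ring

lemma InBox.swap {f g A : ℝ} (h : InBox f g A) : InBox g f A :=
  ⟨h.2.2.1, h.2.2.2.1, h.1, h.2.1, h.2.2.2.2⟩

lemma ContactCase.swap {f g al be : ℝ} (h : ContactCase f g al be) : ContactCase g f be al := by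
  rcases h with ⟨a, b⟩ | ⟨a, b, c⟩ | ⟨a, b, c⟩
  exacts [Or.inl ⟨b, a⟩, Or.inr (Or.inr ⟨b, a, c⟩), Or.inr (Or.inl ⟨b, a, c⟩)]

lemma bB_swap (f g A : ℝ) : bB g f A = bB f g A := by simp only [bB]; ring

/-- An even numerator under the exchange. -/
lemma sc_even {Y : Num} (h : ∀ T ∈ Y, T.b % 2 = 0) (f g A : ℝ) :
    scV Y g f A = scV Y f g A ∧ scA Y g f A = scA Y f g A ∧ scW Y g f A = -scW Y f g A ∧
      scU Y g f A = scU Y f g A ∧ scK Y g f A = scK Y f g A ∧
      Y.val (g - f) (2 - g - f) A = Y.val (f - g) (2 - f - g) A := by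
  have e : g - f = -(f - g) := by ring
  have e' : 2 - g - f = 2 - f - g := by ring
  obtain ⟨a, b, c, d⟩ := Num.val_neg h (f - g) (2 - f - g) A
  simp only [scV, scA, scW, scU, scK, bB_swap, e, e', a, b, c, d]
  refine ⟨?_, ?_, ?_, ?_, ?_, ?_⟩ <;> ring

/-- An odd numerator under the exchange. -/
lemma sc_odd {Y : Num} (h : ∀ T ∈ Y, T.b % 2 = 1) (f g A : ℝ) :
    scV Y g f A = -scV Y f g A ∧ scA Y g f A = -scA Y f g A ∧ scW Y g f A = scW Y f g A ∧
      scU Y g f A = -scU Y f g A := by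
  have e : g - f = -(f - g) := by ring
  have e' : 2 - g - f = 2 - f - g := by ring
  obtain ⟨a, b, c, d⟩ := Num.val_neg h (f - g) (2 - f - g) A
  simp only [scV, scA, scW, scU, bB_swap, e, e', a, b, c, d]
  refine ⟨?_, ?_, ?_, ?_⟩ <;> ring

variable {V : Vec} (hV : V.Parity)

include hV in
lemma parity_parts : (∀ T ∈ V.Y0, T.b % 2 = 1) ∧ (∀ T ∈ V.Y1, T.b % 2 = 0) ∧
    (∀ T ∈ V.Y2, T.b % 2 = 0) ∧ (∀ T ∈ V.Y3, T.b % 2 = 0) ∧ ∀ T ∈ V.Y4, T.b % 2 = 0 :=
  ⟨hV.1, fun T h => hV.2 T (by simp [h]), fun T h => hV.2 T (by simp [h]),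
    fun T h => hV.2 T (by simp [h]), fun T h => hV.2 T (by simp [h])⟩

include hV in
lemma bodyForm_swap (f g A x L Lv H m : ℝ) :
    bodyForm V g f A x L Lv H m = bodyForm V f g A x (-L) Lv (-H) (-m) := by
  obtain ⟨p0, p1, p2, -, -⟩ := parity_parts hV
  obtain ⟨a0, b0, c0, d0⟩ := sc_odd p0 f g A
  obtain ⟨a1, b1, c1, d1, -, -⟩ := sc_even p1 f g A
  obtain ⟨a2, b2, c2, d2, -, -⟩ := sc_even p2 f g A
  rw [bodyForm, bodyForm, a0, b0, c0, d0, a1, b1, c1, d1, a2, b2, c2, d2]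
  ring

include hV in
lemma intForm_swap (f g A x H m : ℝ) :
    intForm V g f A x H m = intForm V f g A x (-H) (-m) := by
  rw [intForm, intForm, bodyForm_swap hV]
  ring_nf

include hV in
lemma pairForm_swap (f g A x T τ : ℝ) : pairForm V g f A x T τ = pairForm V f g A x T τ := by
  obtain ⟨-, p1, p2, -, -⟩ := parity_parts hV
  obtain ⟨a1, b1, c1, d1, -, -⟩ := sc_even p1 f g A
  obtain ⟨a2, b2, c2, d2, -, -⟩ := sc_even p2 f g A
  rw [pairForm, pairForm, b1, d1, a2, b2, d2]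

include hV in
lemma contactForm_swap (f g A x al be H φ : ℝ) :
    contactForm V g f A x be al H φ = contactForm V f g A x al be (-H) φ := by
  obtain ⟨-, -, -, p3, p4⟩ := parity_parts hV
  obtain ⟨a3, -, -, -, -, -⟩ := sc_even p3 f g A
  obtain ⟨-, -, -, -, k4, -⟩ := sc_even p4 f g A
  have e1 : slope g f = -slope f g := by
    unfold slope
    rw [← neg_div, add_comm (eLev g)]
    congr 1
    ring
  have e2 : levelPart g f x be al φ = levelPart f g x al be φ := by
    unfold levelPart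
    rw [add_comm (eLev g) (eLev f)]
    ring
  rw [contactForm, contactForm, bodyForm_swap hV, a3, k4, e1, e2, neg_neg]
  ring_nf

include hV in
/-- The conditions on the half `g ≤ f` suffice. -/
theorem holds_of_half {ρ : ℝ → ℝ → ℝ} (hρ : ∀ f g, ρ f g = ρ g f) (hfit : V.Fit)
    (hint : ∀ f g A, InBox f g A → g ≤ f → qLev f + qLev g ≤ 2 → ∀ H m : ℝ,
      target ρ f g A ≤ intForm V f g A A H m)
    (hpair : ∀ f g A, InBox f g A → g ≤ f → qLev f + qLev g ≤ 2 → ∀ T τ : ℝ,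
      0 ≤ pairForm V f g A A T τ)
    (hhess : ∀ f g A, InBox f g A → g ≤ f → qLev f + qLev g ≤ 2 →
      0 ≤ V.Y2.val (f - g) (2 - f - g) A)
    (hcon : ∀ f g A al be, InBox f g A → g ≤ f → qLev f + qLev g = 2 → ContactCase f g al be →
      ∀ H φ : ℝ, 0 ≤ φ → target ρ f g A ≤ contactForm V f g A A al be H φ)
    (hmult : ∀ f g A, InBox f g A → g ≤ f → qLev f + qLev g = 2 →
      0 ≤ V.Y3.val (f - g) (2 - f - g) A ∧ 0 ≤ V.Y4.val (f - g) (2 - f - g) A) :
    Holds V ρ := by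
  obtain ⟨-, -, p2, p3, p4⟩ := parity_parts hV
  have ht : ∀ f g A, target ρ g f A = target ρ f g A := fun f g A => by
    simp only [target, hρ g f]; ring
  refine ⟨hfit, fun f g A hb hq H m => ?_, fun f g A hb hq T τ => ?_, fun f g A hb hq => ?_,
    fun f g A al be hb hq hc H φ hφ => ?_, fun f g A hb hq => ?_⟩ <;>
    rcases le_total g f with h | h
  · exact hint f g A hb h hq H m
  · rw [← ht, intForm_swap hV]
    exact hint g f A hb.swap h (by linarith) _ _
  · exact hpair f g A hb h hq T τ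
  · rw [pairForm_swap hV]
    exact hpair g f A hb.swap h (by linarith) T τ
  · exact hhess f g A hb h hq
  · rw [(sc_even p2 g f A).2.2.2.2.2]
    exact hhess g f A hb.swap h (by linarith)
  · exact hcon f g A al be hb h hq hc H φ hφ
  · rw [← ht, contactForm_swap hV]
    exact hcon g f A be al hb.swap h (by linarith) hc.swap _ φ hφ
  · exact hmult f g A hb h hq
  · rw [(sc_even p3 g f A).2.2.2.2.2, (sc_even p4 g f A).2.2.2.2.2]
    exact hmult g f A hb.swap h (by linarith)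

end

end Vale.Agent.P211.Cert
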