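import Mathlib
import Vale.Agent.P211.Cert.Vector.Data
import Vale.Agent.P211.Cert.Contact.Entries
import Vale.Agent.P211.Cert.Symm

/-!
P211, the certificate vector and the weight of the right hand side.  The numerators are generated
(`Vector/Data.lean`); everything here is independent of their values.
-/

namespace Vale.Agent.P211.Cert

theorem vecV_fit : vecV.Fit := by decide +kernel

theorem vecV_parity : vecV.Parity := by decide +kernel

theorem vecV_weight : Contact.VecWt vecV := by decide +kernel

noncomputable section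

/-- The band below which nothing is asked. -/
def cV : ℝ := 3 / 5

/-- The weight of the right hand side: between zero and one, zero in the band. -/
def rhoV (f g : ℝ) : ℝ := max (min (min f g - 3 / 5) 1) 0

lemma rhoV_swap (f g : ℝ) : rhoV f g = rhoV g f := by rw [rhoV, rhoV, min_comm f g]

lemma rhoV_mem (f g : ℝ) : 0 ≤ rhoV f g ∧ rhoV f g ≤ 1 :=
  ⟨le_max_right _ _, max_le (min_le_right _ _) zero_le_one⟩

lemma rhoV_band {f g : ℝ} (h : f ≤ 3 / 5 ∨ g ≤ 3 / 5) : rhoV f g = 0 :=
  max_eq_right ((min_le_left _ _).trans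
    (sub_nonpos.2 (h.elim (min_le_left f g).trans (min_le_right f g).trans)))

/-- The weight fits the requirements. -/
theorem goodTarget_rhoV : GoodTarget rhoV cV where
  cont := by unfold rhoV; fun_prop
  nonneg f g := (rhoV_mem f g).1
  band := le_of_eq rfl
  zeros f g _ _ _ h := by
    rcases le_or_gt f cV with hf | hf
    · exact Or.inl hf
    rcases le_or_gt g cV with hg | hg
    · exact Or.inr (Or.inl hg)
    have hm : 0 < min (min f g - 3 / 5) 1 := by
      simp only [cV] at hf hg
      exact lt_min (by linarith [lt_min hf hg]) one_pos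
    rw [rhoV, max_eq_left hm.le] at h
    linarith

/-- The right hand side is at most the one with constant weight one. -/
lemma target_le_one (f g : ℝ) {A : ℝ} (hA : 0 ≤ A) :
    target rhoV f g A ≤ (A + (f - g) ^ 2) ^ 4 * (1 + A) ^ 2 := by
  rw [target, mul_assoc]
  exact mul_le_of_le_one_left (by positivity) (rhoV_mem f g).2

/-- In the band the right hand side vanishes. -/
lemma target_band {f g : ℝ} (h : f ≤ 3 / 5 ∨ g ≤ 3 / 5) (A : ℝ) : target rhoV f g A = 0 := by
  rw [target, rhoV_band h, zero_mul, zero_mul]

/-- The assembly: the five conditions on the half `g ≤ f` give everything to be checked. -/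
theorem holds_vecV
    (hint : ∀ f g A, InBox f g A → g ≤ f → qLev f + qLev g ≤ 2 → ∀ H m : ℝ,
      target rhoV f g A ≤ intForm vecV f g A A H m)
    (hpair : ∀ f g A, InBox f g A → g ≤ f → qLev f + qLev g ≤ 2 → ∀ T τ : ℝ,
      0 ≤ pairForm vecV f g A A T τ)
    (hhess : ∀ f g A, InBox f g A → g ≤ f → qLev f + qLev g ≤ 2 →
      0 ≤ vecV.Y2.val (f - g) (2 - f - g) A)
    (hcon : ∀ f g A al be, InBox f g A → g ≤ f → qLev f + qLev g = 2 → ContactCase f g al be →
      ∀ H φ : ℝ, 0 ≤ φ → target rhoV f g A ≤ contactForm vecV f g A A al be H φ)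
    (hmult : ∀ f g A, InBox f g A → g ≤ f → qLev f + qLev g = 2 →
      0 ≤ vecV.Y3.val (f - g) (2 - f - g) A ∧ 0 ≤ vecV.Y4.val (f - g) (2 - f - g) A) :
    Holds vecV rhoV :=
  holds_of_half vecV_parity rhoV_swap vecV_fit hint hpair hhess hcon hmult

end

end Vale.Agent.P211.Cert
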