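import Mathlib
import Vale.Agent.P211.Cert.Conditions

/-!
P211, the facts about the constraint function used by the reduction of the pointwise certificate.
-/

namespace Vale.Agent.P211.Cert

noncomputable section

lemma continuous_qLev : Continuous qLev := by unfold qLev; fun_prop

lemma continuous_eLev : Continuous eLev := by unfold eLev; fun_prop

lemma continuous_eLev₁ : Continuous eLev₁ := by unfold eLev₁; fun_prop

lemma continuous_reactF : Continuous reactF := by unfold reactF; fun_prop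

lemma continuous_reactT : Continuous fun z : ℝ × ℝ => reactT z.1 z.2 := by
  have := continuous_reactF
  have := continuous_qLev
  have := continuous_eLev
  unfold reactT
  fun_prop

lemma qLev_zero : qLev 0 = 0 := by norm_num [qLev]

lemma qLev_corner : qLev (158 / 125) = 2 := by norm_num [qLev, gamQ]

lemma eLev_zero : eLev 0 = 0 := by norm_num [eLev]

lemma qLev_low {s : ℝ} (hs : s ≤ 11 / 10) : qLev s = s ^ 3 ∧ eLev s = s ^ 2 := by
  rw [qLev, eLev, max_eq_right (by linarith)]
  constructor <;> ring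

lemma qLev_high {s : ℝ} (h : 11 / 10 ≤ s) (hs : s ≤ 141 / 100) :
    1331 / 1000 + 7 / 2 * (s - 11 / 10) ≤ qLev s := by
  rw [qLev, gamQ, max_eq_left (by linarith)]
  set z := s - 11 / 10 with hz
  have e : s = z + 11 / 10 := by rw [hz]; ring
  rw [e]
  nlinarith [mul_nonneg (mul_nonneg (show 0 ≤ z by linarith) (show 0 ≤ z by linarith))
    (show 0 ≤ 31 / 100 - z by linarith), mul_nonneg (show 0 ≤ z by linarith)
    (show 0 ≤ 31 / 100 - z by linarith)]

lemma qLev_nonneg {s : ℝ} (h0 : 0 ≤ s) (hs : s ≤ 141 / 100) : 0 ≤ qLev s := by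
  rcases le_total s (11 / 10) with h | h
  · rw [(qLev_low h).1]; positivity
  · linarith [qLev_high h hs]

lemma eLev_nonneg {s : ℝ} (_h0 : 0 ≤ s) (hs : s ≤ 141 / 100) : 0 ≤ eLev s := by
  rcases le_total s (11 / 10) with h | h
  · rw [(qLev_low h).2]; positivity
  · rw [eLev, gamQ, max_eq_left (by linarith)]; nlinarith

lemma eLev_pos {s : ℝ} (h0 : 0 < s) (hs : s ≤ 141 / 100) : 0 < eLev s := by
  rcases le_total s (11 / 10) with h | h
  · rw [(qLev_low h).2]; positivity
  · rw [eLev, gamQ, max_eq_left (by linarith)]; nlinarith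

/-- The domain lies below the line through the equilibrium. -/
lemma sum_le_two {f g : ℝ} (f0 : 0 ≤ f) (f1 : f ≤ 141 / 100) (g0 : 0 ≤ g) (g1 : g ≤ 141 / 100)
    (h : qLev f + qLev g ≤ 2) : f + g ≤ 2 := by
  have side : ∀ a b : ℝ, 0 ≤ a → a ≤ 141 / 100 → 0 ≤ b → b ≤ 141 / 100 → qLev a + qLev b ≤ 2 →
      11 / 10 < a → a + b ≤ 2 := fun a b a0 a1 b0 b1 hab ha => by
    have h1 := qLev_high ha.le a1
    have hb : b ≤ 11 / 10 := by
      by_contra hb
      linarith [qLev_high (not_le.1 hb).le b1]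
    rw [(qLev_low hb).1] at hab
    nlinarith [mul_nonneg (show 0 ≤ b + 2 * (7 / 8) by linarith) (sq_nonneg (b - 7 / 8))]
  rcases lt_or_ge (11 / 10) f with hf | hf
  · exact side f g f0 f1 g0 g1 h hf
  rcases lt_or_ge (11 / 10) g with hg | hg
  · linarith [side g f g0 g1 f0 f1 (by linarith) hg]
  rw [(qLev_low hf).1, (qLev_low hg).1] at h
  by_contra hc
  nlinarith [pow_lt_pow_left₀ (not_le.1 hc) (by norm_num) three_ne_zero,
    mul_nonneg (add_nonneg f0 g0) (sq_nonneg (f - g))]

/-- On the level the two slopes do not both vanish. -/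
lemma eLev_sum_pos {f g : ℝ} (f0 : 0 ≤ f) (f1 : f ≤ 141 / 100) (g0 : 0 ≤ g) (g1 : g ≤ 141 / 100)
    (h : qLev f + qLev g = 2) : 0 < eLev f + eLev g := by
  rcases f0.eq_or_lt with hf | hf
  · rcases g0.eq_or_lt with hg | hg
    · rw [← hf, ← hg, qLev_zero] at h; norm_num at h
    · linarith [eLev_pos hg g1, eLev_nonneg f0 f1]
  · linarith [eLev_pos hf f1, eLev_nonneg g0 g1]

/-- The weighted reaction near the equilibrium. -/
lemma react_near {s : ℝ} (h : |s - 1| ≤ 1 / 10) :
    -(6 * (s - 1)) - 100 * (s - 1) ^ 2 ≤ eLev s * reactF s := by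
  rw [abs_le] at h
  rw [(qLev_low (by linarith)).2, reactF]
  set x := s - 1 with hx
  rw [show s = 1 + x by rw [hx]; ring]
  nlinarith [mul_nonneg (sq_nonneg x) (show 0 ≤ 1 / 10 - x by linarith),
    mul_nonneg (sq_nonneg x) (show 0 ≤ x + 1 / 10 by linarith), sq_nonneg x,
    mul_nonneg (mul_nonneg (sq_nonneg x) (show 0 ≤ 1 / 10 - x by linarith)) (show 0 ≤ x + 1 / 10 by linarith)]

end

end Vale.Agent.P211.Cert
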