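import Mathlib
import Vale.Agent.P211.Cert.Jet

/-!
P211, jets: coordinates along a unit vector in the direction of `d(f - g)`.
-/

open Matrix

namespace Vale.Agent.P211.Cert

open Vale.Agent.P211.Analytic

noncomputable section

/-- A vector is its length times a unit vector. -/
lemma exists_unit (m : Fin 4 → ℝ) :
    ∃ e : Fin 4 → ℝ, e ⬝ᵥ e = 1 ∧ m = √(m ⬝ᵥ m) • e := by
  rcases (dot_self_nonneg m).eq_or_lt with h | h
  · refine ⟨Pi.single 0 1, by simp, ?_⟩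
    rw [← h, Real.sqrt_zero, zero_smul]
    exact dotProduct_self_eq_zero.1 h.symm
  · have hq := Real.sqrt_pos.2 h
    refine ⟨(√(m ⬝ᵥ m))⁻¹ • m, ?_, by rw [smul_smul, mul_inv_cancel₀ hq.ne', one_smul]⟩
    rw [smul_dot_self, inv_pow, Real.sq_sqrt h.le, inv_mul_cancel₀ h.ne']

/-- A matrix against a rank one matrix. -/
lemma mdot_vecMulVec (M : Matrix (Fin 4) (Fin 4) ℝ) (p r : Fin 4 → ℝ) :
    mdot M (vecMulVec p r) = (M *ᵥ r) ⬝ᵥ p := by
  simp only [mdot, dotProduct, mulVec, vecMulVec_apply, Finset.sum_mul]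
  exact Finset.sum_congr rfl fun i _ => Finset.sum_congr rfl fun j _ => by ring

lemma mdot_comm' (M N : Matrix (Fin 4) (Fin 4) ℝ) : mdot M N = mdot N M := by
  simp only [mdot, mul_comm]

lemma mdot_one (M : Matrix (Fin 4) (Fin 4) ℝ) : mdot M 1 = M.trace := by
  simp only [mdot, Matrix.trace, Matrix.diag, Matrix.one_apply, mul_ite, mul_one, mul_zero,
    Finset.sum_ite_eq, Finset.mem_univ, if_true]

lemma mdot_sub_left (M N P : Matrix (Fin 4) (Fin 4) ℝ) :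
    mdot (M - N) P = mdot M P - mdot N P := by
  simp only [mdot, Matrix.sub_apply, sub_mul, Finset.sum_sub_distrib]

lemma mdot_add_left (M N P : Matrix (Fin 4) (Fin 4) ℝ) :
    mdot (M + N) P = mdot M P + mdot N P := by
  simp only [mdot, Matrix.add_apply, add_mul, Finset.sum_add_distrib]

lemma mdot_smul_left (r : ℝ) (M P : Matrix (Fin 4) (Fin 4) ℝ) :
    mdot (r • M) P = r * mdot M P := by
  simp only [mdot, Matrix.smul_apply, smul_eq_mul, Finset.mul_sum, mul_assoc]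

/-- The square of a symmetric matrix against one direction. -/
lemma mdot_self_ge {W : Matrix (Fin 4) (Fin 4) ℝ} (hW : W.IsSymm) {e : Fin 4 → ℝ}
    (he : e ⬝ᵥ e = 1) :
    (W *ᵥ e ⬝ᵥ e) ^ 2 +
        2 * ((W *ᵥ e - (W *ᵥ e ⬝ᵥ e) • e) ⬝ᵥ (W *ᵥ e - (W *ᵥ e ⬝ᵥ e) • e)) +
        (W.trace - W *ᵥ e ⬝ᵥ e) ^ 2 / 3 ≤ mdot W W := by
  set h := W *ᵥ e ⬝ᵥ e
  set z := W *ᵥ e
  set l := (W.trace - h) / 3
  let Z : Matrix (Fin 4) (Fin 4) ℝ :=
    W - vecMulVec z e - vecMulVec e z + (h + l) • vecMulVec e e - l • 1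
  have key := mdot_nonneg Z
  have hze : e ⬝ᵥ z = h := dotProduct_comm _ _
  have hWz : (W *ᵥ z) ⬝ᵥ e = z ⬝ᵥ z := by
    rw [dotProduct_comm, dotProduct_mulVec]
    congr 1
    rw [← mulVec_transpose, hW.eq]
  have exp : mdot Z Z = mdot W W - 2 * (z ⬝ᵥ z) + h ^ 2 - (W.trace - h) ^ 2 / 3 := by
    have sub_r : ∀ M N P : Matrix (Fin 4) (Fin 4) ℝ, mdot P (M - N) = mdot P M - mdot P N :=
      fun M N P => by rw [mdot_comm', mdot_sub_left, mdot_comm' M, mdot_comm' N]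
    have add_r : ∀ M N P : Matrix (Fin 4) (Fin 4) ℝ, mdot P (M + N) = mdot P M + mdot P N :=
      fun M N P => by rw [mdot_comm', mdot_add_left, mdot_comm' M, mdot_comm' N]
    have smul_r : ∀ (r : ℝ) (M P : Matrix (Fin 4) (Fin 4) ℝ), mdot P (r • M) = r * mdot P M :=
      fun r M P => by rw [mdot_comm', mdot_smul_left, mdot_comm' M]
    have vv : ∀ p r p' r' : Fin 4 → ℝ,
        mdot (vecMulVec p r) (vecMulVec p' r') = (p ⬝ᵥ p') * (r ⬝ᵥ r') := fun p r p' r' => by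
      rw [mdot_vecMulVec, vecMulVec_mulVec, op_smul_eq_smul, smul_dotProduct, smul_eq_mul, mul_comm]
    have vw : ∀ p r : Fin 4 → ℝ, mdot (vecMulVec p r) W = (W *ᵥ r) ⬝ᵥ p := fun p r => by
      rw [mdot_comm', mdot_vecMulVec]
    have v1 : ∀ p r : Fin 4 → ℝ, mdot (vecMulVec p r) 1 = p ⬝ᵥ r := fun p r => by
      rw [mdot_one, Matrix.trace_vecMulVec]
    have w1 : mdot 1 W = W.trace := by rw [mdot_comm', mdot_one]
    have i1 : ∀ p r : Fin 4 → ℝ, mdot 1 (vecMulVec p r) = p ⬝ᵥ r := fun p r => by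
      rw [mdot_comm', v1]
    simp only [Z, mdot_sub_left, mdot_add_left, mdot_smul_left, sub_r, add_r, smul_r]
    simp only [vv, vw, v1, w1, i1]
    simp only [mdot_vecMulVec, mdot_one, Matrix.trace_one, Fintype.card_fin, Nat.cast_ofNat,
      show W *ᵥ e = z from rfl]
    simp only [hWz, he, hze, show z ⬝ᵥ e = h from rfl]
    simp only [l]
    ring
  have ez : (z - h • e) ⬝ᵥ (z - h • e) = z ⬝ᵥ z - h ^ 2 := by
    simp only [sub_dotProduct, dotProduct_sub, smul_dotProduct, dotProduct_smul, smul_eq_mul,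
      dotProduct_comm e z, he, h]
    ring
  rw [exp] at key
  linarith

/-- The quantities entering `divJet_fields`, in the frame. -/
lemma frame_data (W : Matrix (Fin 4) (Fin 4) ℝ) (hW : W.IsSymm) (m u : Fin 4 → ℝ) :
    ∃ (h n : ℝ) (T τ : Fin 4 → ℝ),
      u ⬝ᵥ m = √(m ⬝ᵥ m) * n ∧ (W *ᵥ m) ⬝ᵥ m = (m ⬝ᵥ m) * h ∧
      (W *ᵥ m) ⬝ᵥ u = √(m ⬝ᵥ m) * (n * h + T ⬝ᵥ τ) ∧
      (W *ᵥ m) ⬝ᵥ (W *ᵥ m) = (m ⬝ᵥ m) * (h ^ 2 + T ⬝ᵥ T) ∧ u ⬝ᵥ u = n ^ 2 + τ ⬝ᵥ τ ∧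
      h ^ 2 + 2 * (T ⬝ᵥ T) + (W.trace - h) ^ 2 / 3 ≤ mdot W W ∧
      ∀ ρ : ℝ, u = ρ • m → τ = 0 ∧ n = ρ * √(m ⬝ᵥ m) := by
  obtain ⟨e, he, hm⟩ := exists_unit m
  set r := √(m ⬝ᵥ m)
  have hr : r ^ 2 = m ⬝ᵥ m := Real.sq_sqrt (dot_self_nonneg m)
  refine ⟨W *ᵥ e ⬝ᵥ e, u ⬝ᵥ e, W *ᵥ e - (W *ᵥ e ⬝ᵥ e) • e, u - (u ⬝ᵥ e) • e,
    ?_, ?_, ?_, ?_, ?_, mdot_self_ge hW he, fun ρ hρ => ⟨?_, ?_⟩⟩
  · rw [hm, dotProduct_smul, smul_eq_mul]
  · rw [← hr, hm, mulVec_smul, smul_dotProduct, dotProduct_smul, smul_eq_mul, smul_eq_mul]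
    ring
  · rw [hm, mulVec_smul, smul_dotProduct, smul_eq_mul]
    simp only [sub_dotProduct, dotProduct_sub, smul_dotProduct, dotProduct_smul, smul_eq_mul,
      dotProduct_comm e u, he]
    ring
  · rw [← hr, hm, mulVec_smul, smul_dot_self]
    simp only [sub_dotProduct, dotProduct_sub, smul_dotProduct, dotProduct_smul, smul_eq_mul,
      dotProduct_comm e (W *ᵥ e), he]
    ring
  · simp only [sub_dotProduct, dotProduct_sub, smul_dotProduct, dotProduct_smul, smul_eq_mul,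
      dotProduct_comm e u, he]
    ring
  · have hu : u = (ρ * r) • e := by rw [hρ, hm, smul_smul]
    rw [hu, smul_dotProduct, he, smul_eq_mul, mul_one, sub_self]
  · rw [hρ, hm, smul_smul, smul_dotProduct, he, smul_eq_mul, mul_one]

end

end Vale.Agent.P211.Cert
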