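import Mathlib
import Vale.Agent.P211.Cert.Coef
import Vale.Agent.P211.Cert.Frame
import Vale.Agent.P211.Cert.LevelFacts

/-!
P211, scaling: the coefficients times `scale` are the polynomial coefficients of the conditions, and
the divergence on a jet is bounded below by the forms.
-/

open Matrix
open scoped ContDiff

namespace Vale.Agent.P211.Cert

open Vale.Agent.P211.Analytic (pt part divJet mdot dot_self_nonneg)

noncomputable section

/-- A coefficient as a function of `f`, `g` and `A`. -/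
def cval (p : ℝ) (Y : Num) (f g A : ℝ) : ℝ := quot p Y (f - g) (2 - f - g) A

lemma bB_nonneg {f g A : ℝ} (_hA : 0 ≤ A) (h : f + g ≤ 2) : A ≤ bB f g A := by
  have := kap_ge
  have := mul_nonneg (show 0 ≤ kap by linarith) (show 0 ≤ 2 - f - g by linarith)
  unfold bB
  linarith [sq_nonneg (f - g)]

lemma scale_pos {f g A : ℝ} (hA : 0 ≤ A) (hB : 0 < bB f g A) : 0 < scale f g A := by
  unfold scale
  positivity

/-- The five values and the three derivatives, scaled. -/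
lemma scale_mul (Y : Num) {f g A : ℝ} (hA : 0 ≤ A) (hB : 0 < bB f g A) :
    scale f g A * cval (4 / 3) Y f g A = scV Y f g A ∧
    scale f g A * cval (7 / 3) Y f g A = scK Y f g A ∧
    scale f g A * quotA (4 / 3) Y (f - g) (2 - f - g) A = scA Y f g A ∧
    scale f g A * quotW (4 / 3) Y (f - g) (2 - f - g) A = scW Y f g A ∧
    scale f g A * -quotS (4 / 3) Y (f - g) (2 - f - g) A = scU Y f g A := by
  have e : A + (f - g) ^ 2 + kap * (2 - f - g) = bB f g A := rfl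
  have h1 : bB f g A ^ (7 / 3 : ℝ) * bB f g A ^ (-(4 / 3) : ℝ) = bB f g A := by
    rw [← Real.rpow_add hB]; norm_num
  have h2 : bB f g A ^ (7 / 3 : ℝ) * bB f g A ^ (-(7 / 3) : ℝ) = 1 := by
    rw [← Real.rpow_add hB]; norm_num
  have h1A : (1 + A) ≠ 0 := by positivity
  have e4 : (-(4 / 3) - 1 : ℝ) = -(7 / 3) := by norm_num
  simp only [cval, quot, quotA, quotW, quotS, scale, scV, scK, scA, scW, scU, e, e4]
  set b := bB f g A
  set P := b ^ (7 / 3 : ℝ)
  set q := b ^ (-(4 / 3) : ℝ)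
  set r := b ^ (-(7 / 3) : ℝ)
  refine ⟨?_, ?_, ?_, ?_, ?_⟩ <;> field_simp
  · linear_combination (Y.val (f - g) (2 - f - g) A) * h1
  · linear_combination (Y.val (f - g) (2 - f - g) A) * h2
  · linear_combination (3 * (1 + A) * Y.valA (f - g) (2 - f - g) A -
      6 * Y.val (f - g) (2 - f - g) A) * h1 + (-4 * (1 + A) * Y.val (f - g) (2 - f - g) A) * h2
  · linear_combination (3 * Y.valW (f - g) (2 - f - g) A) * h1 +
      (-8 * (f - g) * Y.val (f - g) (2 - f - g) A) * h2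
  · linear_combination (-3 * Y.valS (f - g) (2 - f - g) A) * h1 +
      (4 * kap * Y.val (f - g) (2 - f - g) A) * h2

/-- The forms in the unscaled unknowns. -/
lemma body_le (V : Vec) {s t A x L M : ℝ} (hx : 0 ≤ x) (h1 : 0 ≤ scU V.Y1 s t A) (h n ρ : ℝ) :
    bodyForm V s t A x L M h (if x = 0 then ρ else n / √x) ≤
      scV V.Y0 s t A * L + scV V.Y1 s t A * M +
      scV V.Y2 s t A * (4 / 3 * h ^ 2 - 2 / 3 * L * h - 2 / 3 * L ^ 2 + 3 * x) +
      (scW V.Y0 s t A * x + scU V.Y0 s t A * (√x * n) + 2 * scA V.Y0 s t A * (x * h)) +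
      (scW V.Y1 s t A * (√x * n) + scU V.Y1 s t A * n ^ 2 +
        2 * scA V.Y1 s t A * (√x * (n * h))) +
      (scW V.Y2 s t A * (x * h - L * x) + scU V.Y2 s t A * (√x * (n * h) - L * (√x * n)) +
        2 * scA V.Y2 s t A * (x * h ^ 2 - L * (x * h))) := by
  unfold bodyForm
  rcases hx.eq_or_lt with h0 | h0
  · subst h0
    simp only [Real.sqrt_zero, zero_mul, mul_zero, add_zero, sub_zero]
    linarith [mul_nonneg h1 (sq_nonneg n)]
  · rw [if_neg h0.ne']
    obtain ⟨r, hr, rfl⟩ : ∃ r : ℝ, 0 < r ∧ x = r ^ 2 :=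
      ⟨√x, Real.sqrt_pos.2 h0, (Real.sq_sqrt h0.le).symm⟩
    rw [Real.sqrt_sq hr.le]
    refine le_of_eq ?_
    field_simp
    ring

/-- The part across the gradient is nonnegative. -/
lemma perp_nonneg (V : Vec) {s t A x : ℝ} (hx : 0 ≤ x) (h2 : 0 ≤ scV V.Y2 s t A)
    (h1 : 0 ≤ scU V.Y1 s t A) (hpair : ∀ T τ : ℝ, 0 ≤ pairForm V s t A x T τ)
    (T τ : Fin 4 → ℝ) :
    0 ≤ (T ⬝ᵥ T) * (2 * scV V.Y2 s t A + 2 * x * scA V.Y2 s t A) +
      (τ ⬝ᵥ τ) * scU V.Y1 s t A + (T ⬝ᵥ τ) * (√x * (2 * scA V.Y1 s t A + scU V.Y2 s t A)) := by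
  simp only [dotProduct, Finset.sum_mul, ← Finset.sum_add_distrib]
  refine Finset.sum_nonneg fun i _ => ?_
  rcases hx.eq_or_lt with h0 | h0
  · subst h0
    simp only [Real.sqrt_zero, zero_mul, mul_zero, add_zero]
    exact add_nonneg (mul_nonneg (mul_self_nonneg _) (by linarith))
      (mul_nonneg (mul_self_nonneg _) h1)
  · obtain ⟨r, hr, rfl⟩ : ∃ r : ℝ, 0 < r ∧ x = r ^ 2 :=
      ⟨√x, Real.sqrt_pos.2 h0, (Real.sq_sqrt h0.le).symm⟩
    rw [Real.sqrt_sq hr.le]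
    refine (hpair (T i) (τ i / r)).trans_eq ?_
    unfold pairForm
    field_simp

/-- The coefficients of the three fields. -/
def coef3 (V : Vec) (θ : ℝ) : Fin 3 → (Fin 5 → ℝ) → ℝ :=
  ![coef (4 / 3) V.Y0 θ, coef (4 / 3) V.Y1 θ, coef (4 / 3) V.Y2 θ]

lemma contDiff_coef3 (V : Vec) {θ : ℝ} (hθ : 0 < θ) (i : Fin 3) :
    ContDiff ℝ ∞ (coef3 V θ i) := by
  fin_cases i <;> exact contDiff_coef _ _ hθ

/-- The scaled divergence on a jet dominates the forms.  The unknown `μ` is the gradient of `f + g`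
along that of `f - g`, in units of the latter. -/
theorem jet_ge (V : Vec) {θ : ℝ} (hθ : 0 < θ) {s t : ℝ} {a b : Fin 4 → ℝ}
    {H K : Matrix (Fin 4) (Fin 4) ℝ} (hH : H.IsSymm) (hK : K.IsSymm) (hst : s + t ≤ 2)
    (h2 : 0 ≤ scV V.Y2 s t ((a - b) ⬝ᵥ (a - b) + θ))
    (h1 : 0 ≤ scU V.Y1 s t ((a - b) ⬝ᵥ (a - b) + θ))
    (hpair : ∀ T τ : ℝ,
      0 ≤ pairForm V s t ((a - b) ⬝ᵥ (a - b) + θ) ((a - b) ⬝ᵥ (a - b)) T τ) (ρ : ℝ) :
    ∃ h μ : ℝ, (a + b = ρ • (a - b) → μ = ρ) ∧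
      bodyForm V s t ((a - b) ⬝ᵥ (a - b) + θ) ((a - b) ⬝ᵥ (a - b)) (H.trace - K.trace)
          (H.trace + K.trace) h μ ≤
        scale s t ((a - b) ⬝ᵥ (a - b) + θ) * divJet (fields (coef3 V θ)) 1 s t a b H K := by
  set x := (a - b) ⬝ᵥ (a - b) with hxdef
  set A := x + θ
  have hx : 0 ≤ x := dot_self_nonneg _
  have hA : 0 ≤ A := by positivity
  have hB : 0 < bB s t A := by linarith [bB_nonneg hA hst, show 0 < A by positivity]
  have hd := fun p Y => coef_data p Y hθ a b hst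
  have key := divJet_fields (contDiff_coef3 V hθ) (s := s) (t := t) (a := a) (b := b)
    (W := ![quotW (4 / 3) V.Y0 (s - t) (2 - s - t) A, quotW (4 / 3) V.Y1 (s - t) (2 - s - t) A,
      quotW (4 / 3) V.Y2 (s - t) (2 - s - t) A])
    (U := ![-quotS (4 / 3) V.Y0 (s - t) (2 - s - t) A, -quotS (4 / 3) V.Y1 (s - t) (2 - s - t) A,
      -quotS (4 / 3) V.Y2 (s - t) (2 - s - t) A])
    (D := ![quotA (4 / 3) V.Y0 (s - t) (2 - s - t) A, quotA (4 / 3) V.Y1 (s - t) (2 - s - t) A,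
      quotA (4 / 3) V.Y2 (s - t) (2 - s - t) A])
    (fun i => by fin_cases i <;> exact (hd _ _).2.1) (fun i => by fin_cases i <;> exact (hd _ _).2.2.1)
    (fun i => by fin_cases i <;> exact (hd _ _).2.2.2.1)
    (fun i => by fin_cases i <;> exact (hd _ _).2.2.2.2.1)
    (fun i => by fin_cases i <;> exact (hd _ _).2.2.2.2.2) H K
  have hsy : (H - K).IsSymm := hH.sub hK
  obtain ⟨h, n, T, τ, q1, q2, q3, q4, q5, q6, q7⟩ := frame_data (H - K) hsy (a - b) (a + b)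
  rw [← hxdef] at q1 q2 q3 q4 q7
  refine ⟨h, if x = 0 then ρ else n / √x, fun hρ => ?_, ?_⟩
  · split_ifs with h0
    · rfl
    · rw [(q7 ρ hρ).2, mul_div_assoc, div_self (fun e => h0 ((Real.sqrt_eq_zero hx).1 e)), mul_one]
  rw [key, q2, q3, q4, q5, q1, ← hxdef]
  simp only [Matrix.cons_val, coef3, (hd _ _).1, Matrix.trace_sub]
  rw [Matrix.trace_sub] at q6
  set L := H.trace - K.trace
  set M := H.trace + K.trace
  obtain ⟨v0, -, a0, w0, u0⟩ := scale_mul V.Y0 hA hB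
  obtain ⟨v1, -, a1, w1, u1⟩ := scale_mul V.Y1 hA hB
  obtain ⟨v2, -, a2, w2, u2⟩ := scale_mul V.Y2 hA hB
  simp only [cval] at v0 v1 v2
  set Sc := scale s t A
  have perp := perp_nonneg V hx h2 h1 hpair T τ
  have main := mul_le_mul_of_nonneg_left q6 h2
  refine (body_le V hx h1 h n ρ).trans ?_
  rw [← v0, ← v1, ← v2, ← a0, ← a1, ← a2, ← w0, ← w1, ← w2, ← u0, ← u1, ← u2]
  rw [← v2] at main
  rw [← v2, ← a2, ← u1, ← a1, ← u2] at perp
  linear_combination main + perp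

end

end Vale.Agent.P211.Cert
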