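import Mathlib
import Vale.Agent.P211.Cert.LevelFacts
import Vale.Agent.P211.Cert.Scaled
import Vale.Agent.P211.Cert.Pointwise

/-!
P211, convexity of the forms: affine in `x`, bounded below at `x = 0`, concave in the forces; and
the comparison of the weight with the right hand side.
-/

namespace Vale.Agent.P211.Cert

noncomputable section

lemma bodyForm_affine (V : Vec) {f g A : ℝ} (hA : A ≠ 0) (x L M H m : ℝ) :
    bodyForm V f g A x L M H m =
      (A - x) / A * bodyForm V f g A 0 L M H m + x / A * bodyForm V f g A A L M H m := by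
  unfold bodyForm
  field_simp
  ring

lemma pairForm_nonneg (V : Vec) {f g A x T τ : ℝ} (hA : 0 < A) (hx : 0 ≤ x) (hxA : x ≤ A)
    (h2 : 0 ≤ scV V.Y2 f g A) (h : 0 ≤ pairForm V f g A A T τ) :
    0 ≤ pairForm V f g A x T τ := by
  have e : pairForm V f g A x T τ =
      (A - x) / A * (2 * T ^ 2 * scV V.Y2 f g A) + x / A * pairForm V f g A A T τ := by
    unfold pairForm
    field_simp
    ring
  rw [e]
  have : 0 ≤ A - x := by linarith
  positivity

lemma contactForm_affine (V : Vec) {f g A : ℝ} (hA : A ≠ 0) (x al be H φ : ℝ) :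
    contactForm V f g A x al be H φ =
      (A - x) / A * contactForm V f g A 0 al be H φ +
        x / A * contactForm V f g A A al be H φ := by
  unfold contactForm bodyForm levelPart
  field_simp
  ring

/-- What remains at `x = 0` after completing the square. -/
lemma body_zero (V : Vec) (f g A L M H m : ℝ) :
    bodyForm V f g A 0 L M H m = scV V.Y0 f g A * L + scV V.Y1 f g A * M -
      3 / 4 * scV V.Y2 f g A * L ^ 2 + 4 / 3 * scV V.Y2 f g A * (H - L / 4) ^ 2 := by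
  unfold bodyForm
  ring

/-- Concavity in each force. -/
lemma contact_mix (V : Vec) (f g A x H φ r : ℝ) :
    (contactForm V f g A x r 1 H φ =
      (1 - r) * contactForm V f g A x 0 1 H φ + r * contactForm V f g A x 1 1 H φ +
        2 / 3 * scV V.Y2 f g A * (r * (1 - r)) * (φ * eLev f) ^ 2) ∧
    (contactForm V f g A x 1 r H φ =
      (1 - r) * contactForm V f g A x 1 0 H φ + r * contactForm V f g A x 1 1 H φ +
        2 / 3 * scV V.Y2 f g A * (r * (1 - r)) * (φ * eLev g) ^ 2) := by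
  constructor <;>
  · unfold contactForm bodyForm levelPart
    ring

/-- The forces at contact in terms of the two fractions. -/
lemma forces_cases {φ s t p p' : ℝ}
    (h : ForcesQ φ s t p p') :
    (p = φ * eLev s ∧ p' = φ * eLev t) ∨
    (∃ r, 0 ≤ r ∧ r ≤ 1 ∧ s ^ 3 ≤ 2 ∧ p = φ * (r * eLev s) ∧ p' = φ * eLev t) ∨
    (∃ r, 0 ≤ r ∧ r ≤ 1 ∧ t ^ 3 ≤ 2 ∧ p = φ * eLev s ∧ p' = φ * (r * eLev t)) := by
  obtain ⟨p0, p0', p1, p1', hor, b2, b2'⟩ := h
  have frac : ∀ P q : ℝ, 0 ≤ q → q < P → ∀ u v : ℝ, P = u * v →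
      0 ≤ q / P ∧ q / P ≤ 1 ∧ q = u * (q / P * v) := fun P q h0 h1 u v e => by
    have hP : 0 < P := h0.trans_lt h1
    refine ⟨div_nonneg h0 hP.le, (div_le_one hP).2 h1.le, ?_⟩
    rw [mul_left_comm, ← e, div_mul_cancel₀ _ hP.ne']
  rcases p1.eq_or_lt with e | e
  · rcases p1'.eq_or_lt with e' | e'
    · exact Or.inl ⟨e, e'⟩
    · obtain ⟨a1, a2, a3⟩ := frac _ p' p0' e' φ (eLev t) rfl
      exact Or.inr (Or.inr ⟨_, a1, a2, not_lt.1 fun h => e'.ne (b2' h), e, a3⟩)
  · obtain ⟨a1, a2, a3⟩ := frac _ p p0 e φ (eLev s) rfl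
    exact Or.inr (Or.inl
      ⟨_, a1, a2, not_lt.1 fun h => e.ne (b2 h), a3, hor.resolve_left e.ne⟩)

/-- The weight, scaled, is below the right hand side. -/
lemma gate_le {ρ : ℝ → ℝ → ℝ} (hρ : ∀ f g, 0 ≤ ρ f g) {f g A : ℝ} (f0 : 0 ≤ f)
    (f1 : f ≤ 141 / 100) (g0 : 0 ≤ g) (g1 : g ≤ 141 / 100) (hs : f + g ≤ 2) (hA : 0 ≤ A) :
    scale f g A * gateWeight ρ f g ≤ target ρ f g A := by
  have hW0 : 0 ≤ (f - g) ^ 2 := sq_nonneg _
  have hW : (f - g) ^ 2 ≤ 2 := by nlinarith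
  have hB0 : 0 ≤ bB f g A := hA.trans (bB_nonneg hA hs)
  have hB : bB f g A ≤ A + 22 := by
    have := mul_le_mul kap_le (show 2 - f - g ≤ 2 by linarith) (by linarith) (by norm_num)
    rw [bB]
    linarith
  have hP : bB f g A ^ (7 / 3 : ℝ) ≤ (A + 23) ^ 3 := by
    refine (Real.rpow_le_rpow hB0 (by linarith : bB f g A ≤ A + 23) (by norm_num)).trans ?_
    rw [← Real.rpow_natCast]
    exact Real.rpow_le_rpow_of_exponent_le (by linarith) (by norm_num)
  set W := (f - g) ^ 2 with hWdef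
  have key : 3 * (A + 23) ^ 3 * (1 + A) * W ^ 4 ≤ 150000 * (A + W) ^ 4 := by
    rcases le_or_gt A 2 with h | h
    · calc 3 * (A + 23) ^ 3 * (1 + A) * W ^ 4 ≤ 3 * (2 + 23) ^ 3 * (1 + 2) * (A + W) ^ 4 := by
            gcongr
            linarith
        _ ≤ _ := by
          refine mul_le_mul_of_nonneg_right (by norm_num) ?_
          positivity
    · calc 3 * (A + 23) ^ 3 * (1 + A) * W ^ 4
          ≤ 3 * (25 / 2 * A) ^ 3 * (3 / 2 * A) * 2 ^ 4 := by gcongr <;> linarith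
        _ = 140625 * A ^ 4 := by ring
        _ ≤ 150000 * (A + W) ^ 4 := by
          gcongr
          · norm_num
          · linarith
  have h8 : (f - g) ^ 8 = W ^ 4 := by rw [hWdef, ← pow_mul]
  unfold scale gateWeight target
  rw [h8, ← hWdef]
  have hr := hρ f g
  calc 3 * bB f g A ^ (7 / 3 : ℝ) * (1 + A) ^ 3 * (ρ f g * W ^ 4 / 150000)
      ≤ 3 * (A + 23) ^ 3 * (1 + A) ^ 3 * (ρ f g * W ^ 4 / 150000) := by gcongr
    _ = ρ f g * (1 + A) ^ 2 / 150000 * (3 * (A + 23) ^ 3 * (1 + A) * W ^ 4) := by ring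
    _ ≤ ρ f g * (1 + A) ^ 2 / 150000 * (150000 * (A + W) ^ 4) :=
        mul_le_mul_of_nonneg_left key (by positivity)
    _ = _ := by ring

end

end Vale.Agent.P211.Cert
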