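import Mathlib

/-!
P211: an error that vanishes at `A = 0` off the singular point, is small near it and grows less
than linearly, becomes uniformly small after weighting by `θ / (x + θ)` at `A = x + θ`.
-/

namespace Vale.Agent.P211.Cert

noncomputable section

theorem small_weight {Z : Type*} [TopologicalSpace Z] {K : Set Z} (hK : IsCompact K)
    {B D : Z × ℝ → ℝ} (hB : Continuous B)
    (hD : ContinuousOn D {p | p.1 ∈ K ∧ 0 ≤ p.2 ∧ 0 < B p})
    (hzero : ∀ z ∈ K, 0 < B (z, 0) → D (z, 0) ≤ 0)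
    (hsmall : ∀ κ > 0, ∃ b > 0, ∀ z ∈ K, ∀ A > 0, B (z, A) ≤ b → D (z, A) ≤ κ)
    (hbound : ∃ C : ℝ, ∀ z ∈ K, ∀ A > 0, D (z, A) ≤ C * ((1 + A) * ((1 + A) / A) ^ 3))
    {κ : ℝ} (hκ : 0 < κ) :
    ∃ θ₀ > 0, ∀ θ : ℝ, 0 < θ → θ ≤ θ₀ → ∀ z ∈ K, ∀ x : ℝ, 0 ≤ x →
      θ / (x + θ) * D (z, x + θ) ≤ κ := by
  obtain ⟨b, hb, hbs⟩ := hsmall κ hκ
  obtain ⟨C, hC⟩ := hbound
  set W : Set (Z × ℝ) := (K ×ˢ Set.Icc (0 : ℝ) 1) ∩ B ⁻¹' Set.Ici b
  have hW : IsCompact W := (hK.prod isCompact_Icc).inter_right (isClosed_Ici.preimage hB)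
  have hWD : ContinuousOn D W := hD.mono fun p hp =>
    ⟨hp.1.1, hp.1.2.1, hb.trans_le (show b ≤ B p from hp.2)⟩
  obtain ⟨d, hd, hnear⟩ : ∃ d > 0, ∀ p ∈ W, p.2 ≤ d → D p ≤ κ := by
    have hbad : IsCompact {p ∈ W | κ ≤ D p} := by
      obtain ⟨u, hu, e⟩ := continuousOn_iff_isClosed.1 hWD (Set.Ici κ) isClosed_Ici
      have : {p ∈ W | κ ≤ D p} = W ∩ u := by
        rw [Set.inter_comm W u, ← e, Set.inter_comm]
        rfl
      rw [this]
      exact hW.inter_right hu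
    rcases Set.eq_empty_or_nonempty {p ∈ W | κ ≤ D p} with he | hne
    · refine ⟨1, one_pos, fun p hp _ => ?_⟩
      by_contra hc
      exact Set.eq_empty_iff_forall_notMem.1 he p ⟨hp, (not_le.1 hc).le⟩
    obtain ⟨m, hm, hmin⟩ := hbad.exists_isMinOn hne continuous_snd.continuousOn
    have hpos : 0 < m.2 := by
      refine hm.1.1.2.1.lt_of_ne fun e => ?_
      obtain ⟨z, A⟩ := m
      subst e
      have := hzero z hm.1.1.1 (hb.trans_le hm.1.2)
      linarith [hm.2]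
    refine ⟨m.2 / 2, half_pos hpos, fun p hp h => ?_⟩
    by_contra hc
    have : m.2 ≤ p.2 := hmin ⟨hp, (not_le.1 hc).le⟩
    linarith
  set d₁ := min d 1
  have hd₁ : 0 < d₁ := lt_min hd one_pos
  set c := max C 0 * ((1 + d₁) / d₁) ^ 4 + 1
  have hc : 0 < c := by positivity
  refine ⟨κ / c, div_pos hκ hc, fun θ hθ hθ₀ z hz x hx => ?_⟩
  set A := x + θ
  have hA : 0 < A := by positivity
  have hw1 : θ / A ≤ 1 := (div_le_one hA).2 (le_add_of_nonneg_left hx)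
  have hw0 : 0 ≤ θ / A := by positivity
  rcases le_or_gt A d₁ with h | h
  · have hD' : D (z, A) ≤ κ := by
      rcases le_or_gt (B (z, A)) b with h' | h'
      · exact hbs z hz A hA h'
      · exact hnear (z, A) ⟨⟨hz, hA.le, h.trans (min_le_right _ _)⟩, h'.le⟩
          (h.trans (min_le_left _ _))
    rcases le_or_gt 0 (D (z, A)) with h0 | h0
    · exact (mul_le_of_le_one_left h0 hw1).trans hD'
    · exact (mul_nonpos_of_nonneg_of_nonpos hw0 h0.le).trans hκ.le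
  · refine (mul_le_mul_of_nonneg_left ((hC z hz A hA).trans
      (mul_le_mul_of_nonneg_right (le_max_left C 0) (by positivity))) hw0).trans ?_
    have hq : (1 + A) / A ≤ (1 + d₁) / d₁ := by
      rw [div_le_div_iff₀ hA hd₁]; nlinarith
    calc θ / A * (max C 0 * ((1 + A) * ((1 + A) / A) ^ 3))
        = θ * (max C 0 * ((1 + A) / A) ^ 4) := by field_simp
      _ ≤ θ * (max C 0 * ((1 + d₁) / d₁) ^ 4) := by gcongr
      _ ≤ κ / c * c := mul_le_mul hθ₀ (by simp [c]) (by positivity) (by positivity)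
      _ = κ := div_mul_cancel₀ _ hc.ne'

end

end Vale.Agent.P211.Cert
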