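import Mathlib
import Vale.Agent.P211.Cert.Scaled
import Vale.Agent.P211.Cert.Small
import Vale.Agent.P211.Cert.Pointwise

/-!
P211, the price of evaluating the coefficients at `A + θ`: what is lost at `x = 0`, and the fact
that its weighted size tends to zero with `θ`.
-/

namespace Vale.Agent.P211.Cert

noncomputable section

/-- What the coefficients leave at `x = 0`, for given traces, force and constraint Laplacian; the
third unknown is the force. -/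
def excess (V : Vec) (ρ : ℝ → ℝ → ℝ) (L M R : ℝ × ℝ × ℝ → ℝ) (p : (ℝ × ℝ × ℝ) × ℝ) : ℝ :=
  gateWeight ρ p.1.1 p.1.2.1 -
    (cval (4 / 3) V.Y0 p.1.1 p.1.2.1 p.2 * L p.1 + cval (4 / 3) V.Y1 p.1.1 p.1.2.1 p.2 * M p.1 -
      3 / 4 * cval (4 / 3) V.Y2 p.1.1 p.1.2.1 p.2 * L p.1 ^ 2 +
      (cval (4 / 3) V.Y3 p.1.1 p.1.2.1 p.2 + p.1.2.2 * cval (7 / 3) V.Y4 p.1.1 p.1.2.1 p.2) *
        R p.1)

lemma continuous_bB : Continuous fun p : (ℝ × ℝ × ℝ) × ℝ => bB p.1.1 p.1.2.1 p.2 := by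
  unfold bB
  fun_prop

lemma continuous_gateWeight {ρ : ℝ → ℝ → ℝ} (h : Continuous fun z : ℝ × ℝ => ρ z.1 z.2) :
    Continuous fun z : ℝ × ℝ => gateWeight ρ z.1 z.2 := by
  unfold gateWeight
  fun_prop

lemma gateWeight_nonneg {ρ : ℝ → ℝ → ℝ} (h : ∀ f g, 0 ≤ ρ f g) (f g : ℝ) :
    0 ≤ gateWeight ρ f g := by
  unfold gateWeight
  have h8 : 0 ≤ (f - g) ^ 8 := by rw [show 8 = 2 * 4 from rfl, pow_mul]; positivity
  have := h f g
  positivity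

lemma continuousOn_cval (p : ℝ) (Y : Num) :
    ContinuousOn (fun q : (ℝ × ℝ × ℝ) × ℝ => cval p Y q.1.1 q.1.2.1 q.2)
      {q | 0 ≤ q.2 ∧ 0 < bB q.1.1 q.1.2.1 q.2} := by
  have h : Continuous fun q : (ℝ × ℝ × ℝ) × ℝ =>
      Y.val (q.1.1 - q.1.2.1) (2 - q.1.1 - q.1.2.1) q.2 :=
    Y.continuous_val.comp (by fun_prop : Continuous fun q : (ℝ × ℝ × ℝ) × ℝ =>
      (q.1.1 - q.1.2.1, 2 - q.1.1 - q.1.2.1, q.2))
  have e : (fun q : (ℝ × ℝ × ℝ) × ℝ => cval p Y q.1.1 q.1.2.1 q.2) = fun q =>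
      Y.val (q.1.1 - q.1.2.1) (2 - q.1.1 - q.1.2.1) q.2 * bB q.1.1 q.1.2.1 q.2 ^ (-p) /
        (1 + q.2) ^ 2 := rfl
  rw [e]
  exact (h.continuousOn.mul (continuous_bB.continuousOn.rpow_const fun q hq => Or.inl hq.2.ne')).div
    (by fun_prop) fun q hq => pow_ne_zero 2 (ne_of_gt (by linarith [hq.1]))

/-- Near the singular point a coefficient is at most `√B`. -/
lemma cval_small {Y : Num} (hY : ∀ T ∈ Y, T.Fit) :
    ∃ C, 0 ≤ C ∧ ∀ f g A : ℝ, 0 ≤ A → f + g ≤ 2 → 0 < bB f g A → bB f g A ≤ 1 →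
      |cval (4 / 3) Y f g A| ≤ C * √(bB f g A) := by
  obtain ⟨C, hC, h⟩ := Num.abs_val_le_sq hY
  refine ⟨C, hC, fun f g A hA hs hB hB1 => ?_⟩
  have hv := h (f - g) (2 - f - g) A (bB f g A) hA (by linarith) rfl hB1
  have e : A + (f - g) ^ 2 + kap * (2 - f - g) = bB f g A := rfl
  rw [cval, quot, e, abs_div, abs_mul, abs_of_nonneg (Real.rpow_nonneg hB.le _),
    abs_of_pos (show (0 : ℝ) < (1 + A) ^ 2 by positivity)]
  refine (div_le_self (by positivity) (one_le_pow₀ (by linarith))).trans ?_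
  refine (mul_le_mul_of_nonneg_right hv (Real.rpow_nonneg hB.le _)).trans ?_
  rw [mul_assoc, ← Real.rpow_natCast, ← Real.rpow_add hB, Real.sqrt_eq_rpow]
  refine mul_le_mul_of_nonneg_left (Real.rpow_le_rpow_of_exponent_ge hB hB1 ?_) hC
  norm_num

/-- Away from `A = 0` a coefficient grows at most like `(1 + A)`. -/
lemma cval_bound {Y : Num} (hY : ∀ T ∈ Y, T.Fit) {p : ℝ} (hp : 1 ≤ p) (hp' : p ≤ 3) :
    ∃ C, 0 ≤ C ∧ ∀ f g A : ℝ, 0 ≤ f → f ≤ 141 / 100 → 0 ≤ g → g ≤ 141 / 100 → f + g ≤ 2 → 0 < A →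
      |cval p Y f g A| ≤ C * ((1 + A) * ((1 + A) / A) ^ 3) := by
  obtain ⟨C, hC, h⟩ := Num.abs_val_le_pow hY
  refine ⟨C, hC, fun f g A f0 f1 g0 g1 hs hA => ?_⟩
  have hv := h (f - g) (2 - f - g) A hA.le (abs_le.2 ⟨by linarith, by linarith⟩)
    (abs_le.2 ⟨by linarith, by linarith⟩)
  have e : A + (f - g) ^ 2 + kap * (2 - f - g) = bB f g A := rfl
  have hB : A ≤ bB f g A := bB_nonneg hA.le hs
  have h1 : (0 : ℝ) < 1 + A := by linarith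
  have hr : bB f g A ^ (-p) ≤ (1 + A) ^ 2 / A ^ 3 := by
    refine (Real.rpow_le_rpow_of_nonpos hA hB (by linarith)).trans ?_
    rw [le_div_iff₀ (by positivity), ← Real.rpow_natCast A 3, ← Real.rpow_add hA,
      ← Real.rpow_natCast (1 + A) 2]
    refine (Real.rpow_le_rpow hA.le (by linarith : A ≤ 1 + A) (by push_cast; linarith)).trans ?_
    exact Real.rpow_le_rpow_of_exponent_le (by linarith) (by push_cast; linarith)
  rw [cval, quot, e, abs_div, abs_mul, abs_of_nonneg (Real.rpow_nonneg (hA.le.trans hB) _),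
    abs_of_pos (show (0 : ℝ) < (1 + A) ^ 2 by positivity), div_le_iff₀ (by positivity)]
  calc |Y.val (f - g) (2 - f - g) A| * bB f g A ^ (-p)
      ≤ C * (1 + A) ^ 4 * ((1 + A) ^ 2 / A ^ 3) := mul_le_mul hv hr
        (Real.rpow_nonneg (hA.le.trans hB) _) (by positivity)
    _ = _ := by field_simp

/-- The slope of the multiplier costs little against a constraint Laplacian of size `B`. -/
lemma force_low {Y : Num} {f g A φ P c r : ℝ} (hB : 0 < bB f g A) (p0 : 0 ≤ φ) (p1 : φ ≤ P)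
    (h : 0 ≤ φ * Y.val (f - g) (2 - f - g) A) (hr : -100 * bB f g A ≤ r)
    (hc : cval (4 / 3) Y f g A ≤ c) (hc0 : 0 ≤ c) :
    -(100 * P * c) ≤ φ * cval (7 / 3) Y f g A * r := by
  have e : A + (f - g) ^ 2 + kap * (2 - f - g) = bB f g A := rfl
  have hm : 0 ≤ φ * cval (7 / 3) Y f g A := by
    rw [cval, quot, e, ← mul_div_assoc, ← mul_assoc]
    exact div_nonneg (mul_nonneg h (Real.rpow_nonneg hB.le _)) (sq_nonneg _)
  have hBc : bB f g A * cval (7 / 3) Y f g A = cval (4 / 3) Y f g A := by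
    have h : bB f g A * bB f g A ^ (-(7 / 3) : ℝ) = bB f g A ^ (-(4 / 3) : ℝ) := by
      conv_lhs => arg 1; rw [← Real.rpow_one (bB f g A)]
      rw [← Real.rpow_add hB]
      norm_num
    simp only [cval, quot, e]
    rw [← h]
    ring
  have h1 := mul_le_mul_of_nonneg_left hr hm
  have h2 : φ * cval (4 / 3) Y f g A ≤ P * c :=
    (mul_le_mul_of_nonneg_left hc p0).trans (mul_le_mul_of_nonneg_right p1 hc0)
  rw [← hBc] at h2
  linarith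

variable {V : Vec} {ρ : ℝ → ℝ → ℝ} {K : Set (ℝ × ℝ × ℝ)} {Φ CL CM CR Cρ : ℝ}
  {L M R : ℝ × ℝ × ℝ → ℝ}

/-- The hypotheses on the range of the unknowns and on the bounded data. -/
structure Ranges (ρ : ℝ → ℝ → ℝ) (K : Set (ℝ × ℝ × ℝ)) (Φ CL CM CR Cρ : ℝ)
    (L M R : ℝ × ℝ × ℝ → ℝ) : Prop where
  box : ∀ z ∈ K, (0 ≤ z.1 ∧ z.1 ≤ 141 / 100) ∧ (0 ≤ z.2.1 ∧ z.2.1 ≤ 141 / 100) ∧
    z.1 + z.2.1 ≤ 2 ∧ 0 ≤ z.2.2 ∧ z.2.2 ≤ Φ
  boundL : ∀ z ∈ K, |L z| ≤ CL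
  boundM : ∀ z ∈ K, |M z| ≤ CM
  boundR : ∀ z ∈ K, |R z| ≤ CR
  boundW : ∀ z ∈ K, |ρ z.1 z.2.1| ≤ Cρ
  weight : ∀ f g, 0 ≤ ρ f g

lemma excess_near (hfit : V.Fit) (hd : Ranges ρ K Φ CL CM CR Cρ L M R)
    (hR1 : ∀ z ∈ K, |z.1 - 1| ≤ 1 / 10 → |z.2.1 - 1| ≤ 1 / 10 →
      -100 * ((z.1 - 1) ^ 2 + (z.2.1 - 1) ^ 2) ≤ R z)
    (h4 : ∀ z ∈ K, ∀ A, 0 ≤ A → 0 ≤ z.2.2 * V.Y4.val (z.1 - z.2.1) (2 - z.1 - z.2.1) A) :
    ∀ κ > 0, ∃ b > 0, ∀ z ∈ K, ∀ A > 0, bB z.1 z.2.1 A ≤ b → excess V ρ L M R (z, A) ≤ κ := by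
  obtain ⟨hbox, hCL, hCM, hCR, hCρ, hρ0⟩ := hd
  obtain ⟨f0', f1', f2', f3', f4'⟩ := Vec.fit_mem hfit
  obtain ⟨C0, n0, b0⟩ := cval_small f0'
  obtain ⟨C1, n1, b1⟩ := cval_small f1'
  obtain ⟨C2, n2, b2⟩ := cval_small f2'
  obtain ⟨C3, n3, b3⟩ := cval_small f3'
  obtain ⟨C4, n4, b4⟩ := cval_small f4'
  intro ε hε
  set C := |Cρ| + C0 * |CL| + C1 * |CM| + 3 / 4 * C2 * |CL| ^ 2 + C3 * |CR| + 100 * |Φ| * C4
    with hCdef
  refine ⟨min (1 / 100) ((ε / (C + 1)) ^ 2), lt_min (by norm_num) (by positivity),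
    fun z hz A hA hBb => ?_⟩
  obtain ⟨⟨f0, f1⟩, ⟨g0, g1⟩, hs, p0, p1⟩ := hbox z hz
  set B := bB z.1 z.2.1 A with hBdef
  have hB : 0 < B := hA.trans_le (bB_nonneg hA.le hs)
  have hB100 : B ≤ 1 / 100 := hBb.trans (min_le_left _ _)
  have hsq : √B ≤ ε / (C + 1) := by
    rw [Real.sqrt_le_left (by positivity)]
    exact hBb.trans (min_le_right _ _)
  have hB1 : B ≤ √B := by
    refine Real.le_sqrt_of_sq_le ?_
    nlinarith
  have hk := kap_ge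
  have hσ : 2 - z.1 - z.2.1 ≤ B := by
    have := le_mul_of_one_le_left (show 0 ≤ 2 - z.1 - z.2.1 by linarith) hk
    rw [hBdef, bB]
    linarith [sq_nonneg (z.1 - z.2.1)]
  have hw : (z.1 - z.2.1) ^ 2 ≤ B := by
    have := mul_nonneg (show 0 ≤ kap by linarith) (show 0 ≤ 2 - z.1 - z.2.1 by linarith)
    rw [hBdef, bB]
    linarith
  have hw10 : |z.1 - z.2.1| ≤ 1 / 10 := abs_le_of_sq_le_sq (by norm_num; linarith) (by norm_num)
  rw [abs_le] at hw10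
  have hRlow : -100 * B ≤ R z := by
    refine le_trans ?_ (hR1 z hz (abs_le.2 ⟨by linarith, by linarith⟩)
      (abs_le.2 ⟨by linarith, by linarith⟩))
    nlinarith [sq_nonneg (z.1 + z.2.1 - 2)]
  have hρb := hCρ z hz
  have hG : gateWeight ρ z.1 z.2.1 ≤ |Cρ| * √B := by
    unfold gateWeight
    have h8 : (z.1 - z.2.1) ^ 8 ≤ B := by
      rw [show 8 = 2 * 4 from rfl, pow_mul]
      exact (pow_le_of_le_one (sq_nonneg _) (by linarith) (by norm_num)).trans hw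
    have h8' : 0 ≤ (z.1 - z.2.1) ^ 8 := by rw [show 8 = 2 * 4 from rfl, pow_mul]; positivity
    have h9 := mul_le_mul ((le_abs_self (ρ z.1 z.2.1)).trans (hρb.trans (le_abs_self Cρ)))
      (h8.trans hB1) h8' (abs_nonneg _)
    linarith [mul_nonneg (hρ0 z.1 z.2.1) h8']
  have e0 := (abs_mul _ _).trans_le (mul_le_mul (b0 _ _ A hA.le hs hB (by linarith))
    ((hCL z hz).trans (le_abs_self _)) (abs_nonneg _) (by positivity))
  have e1 := (abs_mul _ _).trans_le (mul_le_mul (b1 _ _ A hA.le hs hB (by linarith))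
    ((hCM z hz).trans (le_abs_self _)) (abs_nonneg _) (by positivity))
  have e2 := mul_le_mul ((le_abs_self _).trans (b2 _ _ A hA.le hs hB (by linarith)))
    (pow_le_pow_left₀ (abs_nonneg _) ((hCL z hz).trans (le_abs_self _)) 2) (by positivity)
    (by positivity)
  rw [sq_abs] at e2
  have e3 := (abs_mul _ _).trans_le (mul_le_mul (b3 _ _ A hA.le hs hB (by linarith))
    ((hCR z hz).trans (le_abs_self _)) (abs_nonneg _) (by positivity))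
  have e4 : -(100 * |Φ| * (C4 * √B)) ≤ z.2.2 * cval (7 / 3) V.Y4 z.1 z.2.1 A * R z :=
    force_low hB p0 (p1.trans (le_abs_self _)) (h4 z hz A hA.le) hRlow
      ((le_abs_self _).trans (b4 _ _ A hA.le hs hB (by linarith))) (by positivity)
  have htot : excess V ρ L M R (z, A) ≤ C * √B := by
    rw [abs_le] at e0 e1 e3
    simp only [excess, hCdef]
    linarith
  calc excess V ρ L M R (z, A) ≤ C * (ε / (C + 1)) :=
        htot.trans (mul_le_mul_of_nonneg_left hsq (by positivity))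
    _ ≤ ε := by
        rw [mul_div_assoc', div_le_iff₀ (by positivity)]
        nlinarith

lemma excess_bound (hfit : V.Fit) (hd : Ranges ρ K Φ CL CM CR Cρ L M R) :
    ∃ C : ℝ, ∀ z ∈ K, ∀ A > 0, excess V ρ L M R (z, A) ≤ C * ((1 + A) * ((1 + A) / A) ^ 3) := by
  obtain ⟨hbox, hCL, hCM, hCR, hCρ, hρ0⟩ := hd
  obtain ⟨f0', f1', f2', f3', f4'⟩ := Vec.fit_mem hfit
  obtain ⟨C0, n0, b0⟩ := cval_bound f0' (p := 4 / 3) (by norm_num) (by norm_num)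
  obtain ⟨C1, n1, b1⟩ := cval_bound f1' (p := 4 / 3) (by norm_num) (by norm_num)
  obtain ⟨C2, n2, b2⟩ := cval_bound f2' (p := 4 / 3) (by norm_num) (by norm_num)
  obtain ⟨C3, n3, b3⟩ := cval_bound f3' (p := 4 / 3) (by norm_num) (by norm_num)
  obtain ⟨C4, n4, b4⟩ := cval_bound f4' (p := 7 / 3) (by norm_num) (by norm_num)
  refine ⟨|Cρ| + C0 * |CL| + C1 * |CM| + 3 / 4 * C2 * |CL| ^ 2 + (C3 + |Φ| * C4) * |CR|,
    fun z hz A hA => ?_⟩
  obtain ⟨⟨f0, f1⟩, ⟨g0, g1⟩, hs, p0, p1⟩ := hbox z hz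
  set E := (1 + A) * ((1 + A) / A) ^ 3
  have hE : 1 ≤ E := one_le_mul_of_one_le_of_one_le (by linarith)
    (one_le_pow₀ (by rw [le_div_iff₀ hA]; linarith))
  have hG : gateWeight ρ z.1 z.2.1 ≤ |Cρ| * E := by
    unfold gateWeight
    have h8 : (z.1 - z.2.1) ^ 8 ≤ 16 := by
      rw [show 8 = 2 * 4 from rfl, pow_mul]
      refine (pow_le_pow_left₀ (sq_nonneg _) (?_ : (z.1 - z.2.1) ^ 2 ≤ 2) 4).trans (by norm_num)
      nlinarith
    have h9 := mul_le_mul_of_nonneg_left h8 (hρ0 z.1 z.2.1)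
    have h10 := ((le_abs_self (ρ z.1 z.2.1)).trans (hCρ z hz)).trans (le_abs_self Cρ)
    linarith [le_mul_of_one_le_right (abs_nonneg Cρ) hE, hρ0 z.1 z.2.1]
  have e0 := (abs_mul _ _).trans_le (mul_le_mul (b0 _ _ A f0 f1 g0 g1 hs hA)
    ((hCL z hz).trans (le_abs_self _)) (abs_nonneg _) (by positivity))
  have e1 := (abs_mul _ _).trans_le (mul_le_mul (b1 _ _ A f0 f1 g0 g1 hs hA)
    ((hCM z hz).trans (le_abs_self _)) (abs_nonneg _) (by positivity))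
  have e2 := mul_le_mul ((le_abs_self _).trans (b2 _ _ A f0 f1 g0 g1 hs hA))
    (pow_le_pow_left₀ (abs_nonneg _) ((hCL z hz).trans (le_abs_self _)) 2) (by positivity)
    (by positivity)
  rw [sq_abs] at e2
  have e34 := (abs_mul _ _).trans_le (mul_le_mul
    ((abs_add_le _ _).trans (add_le_add (b3 _ _ A f0 f1 g0 g1 hs hA)
      ((abs_mul z.2.2 _).trans_le (mul_le_mul (((abs_of_nonneg p0).le.trans p1).trans
        (le_abs_self _)) (b4 _ _ A f0 f1 g0 g1 hs hA) (abs_nonneg _) (abs_nonneg _)))))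
    ((hCR z hz).trans (le_abs_self _)) (abs_nonneg _) (by positivity))
  rw [abs_le] at e0 e1 e34
  simp only [excess]
  linarith

/-- The weighted excess tends to zero. -/
theorem excess_small (V : Vec) {ρ : ℝ → ℝ → ℝ} (hfit : V.Fit)
    (hρ : Continuous fun z : ℝ × ℝ => ρ z.1 z.2) (hρ0 : ∀ f g, 0 ≤ ρ f g)
    {K : Set (ℝ × ℝ × ℝ)} (hK : IsCompact K) {Φ : ℝ}
    (hbox : ∀ z ∈ K, (0 ≤ z.1 ∧ z.1 ≤ 141 / 100) ∧ (0 ≤ z.2.1 ∧ z.2.1 ≤ 141 / 100) ∧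
      z.1 + z.2.1 ≤ 2 ∧ 0 ≤ z.2.2 ∧ z.2.2 ≤ Φ)
    {L M R : ℝ × ℝ × ℝ → ℝ} (hL : Continuous L) (hM : Continuous M) (hR : ContinuousOn R K)
    (hR1 : ∀ z ∈ K, |z.1 - 1| ≤ 1 / 10 → |z.2.1 - 1| ≤ 1 / 10 →
      -100 * ((z.1 - 1) ^ 2 + (z.2.1 - 1) ^ 2) ≤ R z)
    (h4 : ∀ z ∈ K, ∀ A, 0 ≤ A → 0 ≤ z.2.2 * V.Y4.val (z.1 - z.2.1) (2 - z.1 - z.2.1) A)
    (hzero : ∀ z ∈ K, 0 < bB z.1 z.2.1 0 → excess V ρ L M R (z, 0) ≤ 0)
    {κ : ℝ} (hκ : 0 < κ) :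
    ∃ θ₀ > 0, ∀ θ : ℝ, 0 < θ → θ ≤ θ₀ → ∀ z ∈ K, ∀ x : ℝ, 0 ≤ x →
      θ / (x + θ) * excess V ρ L M R (z, x + θ) ≤ κ := by
  obtain ⟨CL, hCL⟩ := hK.exists_bound_of_continuousOn hL.continuousOn
  obtain ⟨CM, hCM⟩ := hK.exists_bound_of_continuousOn hM.continuousOn
  obtain ⟨CR, hCR⟩ := hK.exists_bound_of_continuousOn hR
  obtain ⟨Cρ, hCρ⟩ := hK.exists_bound_of_continuousOn
    (hρ.comp (by fun_prop : Continuous fun z : ℝ × ℝ × ℝ => (z.1, z.2.1))).continuousOn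
  simp only [Real.norm_eq_abs, Function.comp_apply] at hCL hCM hCR hCρ
  have hd : Ranges ρ K Φ CL CM CR Cρ L M R := ⟨hbox, hCL, hCM, hCR, hCρ, hρ0⟩
  refine small_weight hK (B := fun p => bB p.1.1 p.1.2.1 p.2) continuous_bB ?_ hzero
    (excess_near hfit hd hR1 h4) (excess_bound hfit hd) hκ
  · have hs : {p : (ℝ × ℝ × ℝ) × ℝ | p.1 ∈ K ∧ 0 ≤ p.2 ∧ 0 < bB p.1.1 p.1.2.1 p.2} ⊆
        {q | 0 ≤ q.2 ∧ 0 < bB q.1.1 q.1.2.1 q.2} := fun p hp => hp.2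
    have hR' : ContinuousOn (fun p : (ℝ × ℝ × ℝ) × ℝ => R p.1)
        {p | p.1 ∈ K ∧ 0 ≤ p.2 ∧ 0 < bB p.1.1 p.1.2.1 p.2} :=
      hR.comp continuousOn_fst fun p hp => hp.1
    have c := fun p Y => (continuousOn_cval p Y).mono hs
    unfold excess
    exact (((continuous_gateWeight hρ).comp (by fun_prop : Continuous fun p : (ℝ × ℝ × ℝ) × ℝ =>
        (p.1.1, p.1.2.1))).continuousOn).sub
      (((((c _ V.Y0).mul (hL.comp continuous_fst).continuousOn).add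
        ((c _ V.Y1).mul (hM.comp continuous_fst).continuousOn)).sub
          (((c _ V.Y2).const_mul (3 / 4)).mul ((hL.comp continuous_fst).pow 2).continuousOn)).add
        (((c _ V.Y3).add ((by fun_prop : Continuous fun p : (ℝ × ℝ × ℝ) × ℝ =>
          p.1.2.2).continuousOn.mul (c _ V.Y4))).mul hR'))

end

end Vale.Agent.P211.Cert
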