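import Mathlib
import Vale.Agent.P211.Cert.Coef

/-!
P211, growth: on the range of the analysis the coefficients and their partial derivatives are
bounded by a power of `1 + |a|² + |b|²`.
-/

open Matrix
open scoped ContDiff

namespace Vale.Agent.P211.Cert

open Vale.Agent.P211.Analytic (pt part dot_self_nonneg)

noncomputable section

/-- At most polynomial growth on the range of the analysis. -/
def Grow (h : (Fin 5 → ℝ) → ℝ) : Prop :=
  ∃ (n : ℕ) (B : ℝ), 0 ≤ B ∧ ∀ (s t : ℝ) (a b : Fin 4 → ℝ), s ∈ Set.Icc (-1 : ℝ) 3 →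
    t ∈ Set.Icc (-1 : ℝ) 3 → |h (pt s t a b)| ≤ B * (1 + (a ⬝ᵥ a + b ⬝ᵥ b)) ^ n

variable {h k : (Fin 5 → ℝ) → ℝ}

lemma Grow.of_bound (C : ℝ) (hC : ∀ (s t : ℝ) (a b : Fin 4 → ℝ), s ∈ Set.Icc (-1 : ℝ) 3 →
    t ∈ Set.Icc (-1 : ℝ) 3 → |h (pt s t a b)| ≤ C) : Grow h :=
  ⟨0, |C|, abs_nonneg C, fun s t a b hs ht => by
    rw [pow_zero, mul_one]; exact (hC s t a b hs ht).trans (le_abs_self C)⟩

lemma Grow.const (c : ℝ) : Grow fun _ => c := Grow.of_bound |c| fun _ _ _ _ _ _ => le_rfl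

lemma Grow.add (hh : Grow h) (hk : Grow k) : Grow fun y => h y + k y := by
  obtain ⟨n, B, hB, h1⟩ := hh
  obtain ⟨m, C, hC, h2⟩ := hk
  refine ⟨n + m, B + C, by positivity, fun s t a b hs ht => ?_⟩
  have hr : 1 ≤ 1 + (a ⬝ᵥ a + b ⬝ᵥ b) := by linarith [dot_self_nonneg a, dot_self_nonneg b]
  refine (abs_add_le _ _).trans ?_
  rw [add_mul]
  exact add_le_add ((h1 s t a b hs ht).trans
      (mul_le_mul_of_nonneg_left (pow_le_pow_right₀ hr (Nat.le_add_right n m)) hB))
    ((h2 s t a b hs ht).trans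
      (mul_le_mul_of_nonneg_left (pow_le_pow_right₀ hr (Nat.le_add_left m n)) hC))

lemma Grow.mul (hh : Grow h) (hk : Grow k) : Grow fun y => h y * k y := by
  obtain ⟨n, B, hB, h1⟩ := hh
  obtain ⟨m, C, hC, h2⟩ := hk
  refine ⟨n + m, B * C, by positivity, fun s t a b hs ht => ?_⟩
  have hr : 0 ≤ 1 + (a ⬝ᵥ a + b ⬝ᵥ b) := by linarith [dot_self_nonneg a, dot_self_nonneg b]
  rw [abs_mul, pow_add, mul_mul_mul_comm]
  exact mul_le_mul (h1 s t a b hs ht) (h2 s t a b hs ht) (abs_nonneg _) (by positivity)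

lemma Grow.abs (hh : Grow h) : Grow fun y => |h y| := by
  obtain ⟨n, B, hB, h1⟩ := hh
  exact ⟨n, B, hB, fun s t a b hs ht => by simpa only [abs_abs] using h1 s t a b hs ht⟩

lemma Grow.neg (hh : Grow h) : Grow fun y => -h y := by
  obtain ⟨n, B, hB, h1⟩ := hh
  exact ⟨n, B, hB, fun s t a b hs ht => by simpa only [abs_neg] using h1 s t a b hs ht⟩

lemma Grow.sub (hh : Grow h) (hk : Grow k) : Grow fun y => h y - k y := by
  simpa only [sub_eq_add_neg] using hh.add hk.neg

lemma Grow.pow (hh : Grow h) : ∀ n : ℕ, Grow fun y => h y ^ n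
  | 0 => by simpa only [pow_zero] using Grow.const 1
  | n + 1 => by simpa only [pow_succ] using (Grow.pow hh n).mul hh

lemma Grow.sum {ι : Type*} (S : Finset ι) {f : ι → (Fin 5 → ℝ) → ℝ} (hf : ∀ i, Grow (f i)) :
    Grow fun y => ∑ i ∈ S, f i y := by
  classical
  induction S using Finset.induction_on with
  | empty => simpa only [Finset.sum_empty] using Grow.const 0
  | insert i S hi ih => simpa only [Finset.sum_insert hi] using (hf i).add ih

variable {θ : ℝ}

/-- The arguments of the coefficients. -/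
lemma grow_args (hθ : 0 < θ) :
    Grow (fun y => y 0 - y 1) ∧ Grow (argS θ) ∧ Grow (argA θ) := by
  refine ⟨Grow.of_bound 4 ?_, Grow.of_bound 4 ?_, 1, 3 + θ, by positivity, ?_⟩
  · intro s t a b hs ht
    simp only [pt, Matrix.cons_val]
    exact abs_le.2 ⟨by linarith [hs.1, ht.2], by linarith [hs.2, ht.1]⟩
  · intro s t a b hs ht
    have := kap_ge
    refine ((keep_ge (show 0 < θ / (8 * kap) by positivity) _).2).trans ?_
    simp only [pt, Matrix.cons_val]
    exact abs_le.2 ⟨by linarith [hs.2, ht.2], by linarith [hs.1, ht.1]⟩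
  · intro s t a b _ _
    have e : a ⬝ᵥ a + b ⬝ᵥ b - 2 * (a ⬝ᵥ b) = (a - b) ⬝ᵥ (a - b) := by
      simp only [sub_dotProduct, dotProduct_sub, dotProduct_comm b a]; ring
    have e' : a ⬝ᵥ a + b ⬝ᵥ b + 2 * (a ⬝ᵥ b) = (a + b) ⬝ᵥ (a + b) := by
      simp only [add_dotProduct, dotProduct_add, dotProduct_comm b a]; ring
    simp only [argA, pt, Matrix.cons_val, e]
    rw [keep_eq (by positivity) (dot_self_nonneg _), pow_one,
      abs_of_nonneg (by linarith [dot_self_nonneg (a - b)])]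
    have h0 : 0 ≤ θ * (a ⬝ᵥ a + b ⬝ᵥ b) :=
      mul_nonneg hθ.le (add_nonneg (dot_self_nonneg a) (dot_self_nonneg b))
    linarith [dot_self_nonneg (a + b), dot_self_nonneg a, dot_self_nonneg b]

lemma grow_num {w s A : (Fin 5 → ℝ) → ℝ} (hw : Grow w) (hs : Grow s) (hA : Grow A) (Y : Num) :
    Grow (fun y => Y.val (w y) (s y) (A y)) ∧ Grow (fun y => Y.valW (w y) (s y) (A y)) ∧
    Grow (fun y => Y.valS (w y) (s y) (A y)) ∧ Grow (fun y => Y.valA (w y) (s y) (A y)) := by
  induction Y with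
  | nil =>
    simp only [Num.val, Num.valW, Num.valS, Num.valA, List.map_nil, List.sum_nil]
    exact ⟨.const 0, .const 0, .const 0, .const 0⟩
  | cons T Y ih =>
    obtain ⟨i0, i1, i2, i3⟩ := ih
    simp only [Num.val, Num.valW, Num.valS, Num.valA, List.map_cons, List.sum_cons, Term.val,
      Term.valW, Term.valS, Term.valA] at i0 i1 i2 i3 ⊢
    have c := Grow.const (T.c : ℝ)
    have h1 := (Grow.const 1).add hA
    exact ⟨((((c.mul (hA.pow _)).mul (hw.pow _)).mul (hs.pow _)).mul (h1.pow _)).add i0,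
      ((((c.mul (hA.pow _)).mul ((Grow.const (T.b : ℝ)).mul (hw.pow _))).mul (hs.pow _)).mul
        (h1.pow _)).add i1,
      ((((c.mul (hA.pow _)).mul (hw.pow _)).mul ((Grow.const (T.j : ℝ)).mul (hs.pow _))).mul
        (h1.pow _)).add i2,
      (((c.mul ((((Grow.const (T.a : ℝ)).mul (hA.pow _)).mul (h1.pow _)).add
        (((Grow.const (T.m : ℝ)).mul (hA.pow _)).mul (h1.pow _)))).mul (hw.pow _)).mul
        (hs.pow _)).add i3⟩

/-- The singular factor and the two damping factors are bounded. -/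
lemma grow_factors (hθ : 0 < θ) :
    (∀ q : ℝ, q ≤ 0 → Grow fun y => (argA θ y + (y 0 - y 1) ^ 2 + kap * argS θ y) ^ q) ∧
    ∀ n : ℕ, Grow fun y => ((1 + argA θ y) ^ n)⁻¹ := by
  refine ⟨fun q hq => Grow.of_bound ((θ / 2) ^ q) fun s t a b _ _ => ?_,
    fun n => Grow.of_bound 1 fun s t a b _ _ => ?_⟩
  · have h := (arg_pos hθ (pt s t a b)).2
    rw [abs_of_nonneg (Real.rpow_nonneg (by linarith) _)]
    exact Real.rpow_le_rpow_of_nonpos (half_pos hθ) h hq
  · have h := (arg_pos hθ (pt s t a b)).1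
    have h1 : 1 ≤ (1 + argA θ (pt s t a b)) ^ n := one_le_pow₀ (by linarith)
    rw [abs_of_nonneg (inv_nonneg.2 (by linarith))]
    exact inv_le_one_of_one_le₀ h1

/-- The derivatives of the two continuations. -/
lemma grow_keep (hθ : 0 < θ) :
    Grow (fun y => deriv (keep (θ / 8)) (y 2 + y 3 - 2 * y 4)) ∧
    Grow (fun y => deriv (keep (θ / (8 * kap))) (2 - y 0 - y 1)) := by
  obtain ⟨C, hC⟩ := (isCompact_Icc (a := (-4 : ℝ)) (b := 4)).exists_bound_of_continuousOn
    ((contDiff_keep (θ / (8 * kap))).continuous_deriv (by simp)).continuousOn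
  refine ⟨Grow.of_bound 1 fun s t a b _ _ => ?_, Grow.of_bound C fun s t a b hs ht => ?_⟩
  · have e : a ⬝ᵥ a + b ⬝ᵥ b - 2 * (a ⬝ᵥ b) = (a - b) ⬝ᵥ (a - b) := by
      simp only [sub_dotProduct, dotProduct_sub, dotProduct_comm b a]; ring
    simp only [pt, Matrix.cons_val, e]
    rw [(deriv_keep (by positivity) (dot_self_nonneg _)).deriv, abs_one]
  · simp only [pt, Matrix.cons_val]
    exact hC _ ⟨by linarith [hs.2, ht.2], by linarith [hs.1, ht.1]⟩

/-- A coefficient and its partial derivatives. -/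
theorem grow_coef {p : ℝ} (hp : 0 ≤ p) (Y : Num) (hθ : 0 < θ) :
    Grow (coef p Y θ) ∧ ∀ j, Grow (part (coef p Y θ) j) := by
  obtain ⟨hw, hS, hA⟩ := grow_args hθ
  obtain ⟨v, vW, vS, vA⟩ := grow_num hw hS hA Y
  obtain ⟨hq, hd⟩ := grow_factors hθ
  obtain ⟨kA, kS⟩ := grow_keep hθ
  have q0 := hq (-p) (by linarith)
  have q1 := hq (-p - 1) (by linarith)
  have gW : Grow fun y => quotW p Y (y 0 - y 1) (argS θ y) (argA θ y) := by
    simp only [quotW, div_eq_mul_inv]
    exact ((vW.mul q0).sub ((((Grow.const p).mul v).mul ((Grow.const 2).mul hw)).mul q1)).mul (hd 2)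
  have gS : Grow fun y => quotS p Y (y 0 - y 1) (argS θ y) (argA θ y) := by
    simp only [quotS, div_eq_mul_inv]
    exact ((vS.mul q0).sub ((((Grow.const p).mul v).mul (Grow.const kap)).mul q1)).mul (hd 2)
  have gA : Grow fun y => quotA p Y (y 0 - y 1) (argS θ y) (argA θ y) := by
    simp only [quotA, div_eq_mul_inv]
    exact (((vA.mul q0).sub (((Grow.const p).mul v).mul q1)).mul (hd 2)).sub
      ((((Grow.const 2).mul v).mul q0).mul (hd 3))
  refine ⟨?_, fun j => ?_⟩
  · show Grow fun y => quot p Y (y 0 - y 1) (argS θ y) (argA θ y)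
    simp only [quot, div_eq_mul_inv]
    exact (v.mul q0).mul (hd 2)
  · rw [show part (coef p Y θ) j = _ from funext fun y => part_coef p Y hθ y j]
    exact ((gW.mul (Grow.const _)).add (gS.mul (kS.mul (Grow.const _)))).add
      (gA.mul (kA.mul (Grow.const _)))

end

end Vale.Agent.P211.Cert
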