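import Mathlib
import Vale.Agent.P211.Cert.Convex
import Vale.Agent.P211.Cert.Excess
import Vale.Agent.P211.Cert.Grow

/-!
P211, the main reduction: a symbolic vector with the properties `Holds` gives, for every loss `κ`
and every bound `Φ` on the penalty force, the pointwise certificate with the weight `gateWeight`.
-/

open Matrix
open scoped ContDiff

namespace Vale.Agent.P211.Cert

open Vale.Agent.P211.Analytic (pt part divJet dot_self_nonneg)

noncomputable section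

/-- The traces in the contact case `(al, be)`, first the difference, then the sum, and the
constraint Laplacian at `x = 0`. -/
def contactData (al be : ℝ) :
    (ℝ × ℝ × ℝ → ℝ) × (ℝ × ℝ × ℝ → ℝ) × (ℝ × ℝ × ℝ → ℝ) :=
  (fun z => reactF z.1 - reactF z.2.1 + z.2.2 * (al * eLev z.1 - be * eLev z.2.1),
   fun z => reactF z.1 + reactF z.2.1 + z.2.2 * (al * eLev z.1 + be * eLev z.2.1),
   fun z => eLev z.1 * reactF z.1 + eLev z.2.1 * reactF z.2.1 +
     z.2.2 * (al * eLev z.1 ^ 2 + be * eLev z.2.1 ^ 2))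

/-- What remains at `x = 0`, scaled, in terms of the excess. -/
lemma scale_excess (V : Vec) (ρ : ℝ → ℝ → ℝ) (L M R : ℝ × ℝ × ℝ → ℝ) (z : ℝ × ℝ × ℝ) {A : ℝ}
    (hA : 0 ≤ A) (hB : 0 < bB z.1 z.2.1 A) :
    scale z.1 z.2.1 A * (gateWeight ρ z.1 z.2.1 - excess V ρ L M R (z, A)) =
      scV V.Y0 z.1 z.2.1 A * L z + scV V.Y1 z.1 z.2.1 A * M z -
        3 / 4 * scV V.Y2 z.1 z.2.1 A * L z ^ 2 +
        (scV V.Y3 z.1 z.2.1 A + z.2.2 * scK V.Y4 z.1 z.2.1 A) * R z := by
  rw [← (scale_mul V.Y0 hA hB).1, ← (scale_mul V.Y1 hA hB).1, ← (scale_mul V.Y2 hA hB).1,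
    ← (scale_mul V.Y3 hA hB).1, ← (scale_mul V.Y4 hA hB).2.1]
  unfold excess
  ring

lemma scV_nonneg {Y : Num} {f g A : ℝ} (hA : 0 ≤ A) (hs : f + g ≤ 2)
    (h : 0 ≤ Y.val (f - g) (2 - f - g) A) : 0 ≤ scV Y f g A := by
  have := hA.trans (bB_nonneg hA hs)
  unfold scV
  positivity

/-- Interpolation between `x = 0` and `x = A`. -/
lemma weighted {S G E κ F0 FA A x : ℝ} (hS : 0 ≤ S) (hA : 0 < A) (hx : 0 ≤ x) (hxA : x ≤ A)
    (h0 : S * (G - E) ≤ F0) (h1 : S * G ≤ FA) (hE : (A - x) / A * E ≤ κ) :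
    S * (G - κ) ≤ (A - x) / A * F0 + x / A * FA := by
  have w0 : 0 ≤ (A - x) / A := div_nonneg (by linarith) hA.le
  have w1 : 0 ≤ x / A := div_nonneg hx hA.le
  calc S * (G - κ) ≤ S * (G - (A - x) / A * E) :=
        mul_le_mul_of_nonneg_left (by linarith) hS
    _ = (A - x) / A * (S * (G - E)) + x / A * (S * G) := by field_simp; ring
    _ ≤ _ := add_le_add (mul_le_mul_of_nonneg_left h0 w0) (mul_le_mul_of_nonneg_left h1 w1)

variable {V : Vec} {ρ : ℝ → ℝ → ℝ}

/-- The interior form with the coefficients at `x + θ`. -/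
lemma interior_loss (hH : Holds V ρ) {c : ℝ} (hT : GoodTarget ρ c) {κ : ℝ} (hκ : 0 < κ) :
    ∃ θ₀ > 0, ∀ θ : ℝ, 0 < θ → θ ≤ θ₀ → ∀ f g x h μ : ℝ, f ∈ Set.Icc (0 : ℝ) (141 / 100) →
      g ∈ Set.Icc (0 : ℝ) (141 / 100) → qLev f + qLev g ≤ 2 → 0 ≤ x →
      scale f g (x + θ) * (gateWeight ρ f g - κ) ≤
        bodyForm V f g (x + θ) x (reactT f g - reactT g f) (reactT f g + reactT g f) h μ := by
  set K : Set (ℝ × ℝ × ℝ) := (Set.Icc (0 : ℝ) (141 / 100) ×ˢ Set.Icc (0 : ℝ) (141 / 100) ×ˢ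
    Set.Icc (0 : ℝ) 0) ∩ {z | qLev z.1 + qLev z.2.1 ≤ 2}
  have hK : IsCompact K := (isCompact_Icc.prod (isCompact_Icc.prod isCompact_Icc)).inter_right
    (isClosed_le ((continuous_qLev.comp continuous_fst).add
      (continuous_qLev.comp (continuous_fst.comp continuous_snd))) continuous_const)
  obtain ⟨θ₀, h0, hθ₀⟩ := excess_small V hH.fit hT.cont hT.nonneg hK (Φ := 0)
    (L := fun z => reactT z.1 z.2.1 - reactT z.2.1 z.1) (M := fun z => reactT z.1 z.2.1 + reactT z.2.1 z.1)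
    (R := fun _ => 0)
    (fun z ⟨⟨hf, hg, hp⟩, hq⟩ => ⟨hf, hg, sum_le_two hf.1 hf.2 hg.1 hg.2 hq, hp.1, hp.2⟩)
    ((continuous_reactT.comp (continuous_fst.prodMk (continuous_fst.comp continuous_snd))).sub
      (continuous_reactT.comp ((continuous_fst.comp continuous_snd).prodMk continuous_fst)))
    ((continuous_reactT.comp (continuous_fst.prodMk (continuous_fst.comp continuous_snd))).add
      (continuous_reactT.comp ((continuous_fst.comp continuous_snd).prodMk continuous_fst)))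
    continuousOn_const
    (fun z _ _ _ => by nlinarith [sq_nonneg (z.1 - 1), sq_nonneg (z.2.1 - 1)])
    (fun z hz A _ => by rw [show z.2.2 = 0 from le_antisymm hz.1.2.2.2 hz.1.2.2.1, zero_mul])
    (fun z hz hB => by
      obtain ⟨⟨hf, hg, -⟩, hq⟩ := hz
      have hs := sum_le_two hf.1 hf.2 hg.1 hg.2 hq
      have h1 := (gate_le hT.nonneg hf.1 hf.2 hg.1 hg.2 hs le_rfl).trans
        (hH.interior _ _ 0 ⟨hf.1, hf.2, hg.1, hg.2, le_rfl⟩ hq
          ((reactT z.1 z.2.1 - reactT z.2.1 z.1) / 4) 0)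
      rw [intForm, body_zero, sub_self, zero_pow (by norm_num), mul_zero, add_zero] at h1
      have h2 := scale_excess V ρ (fun z => reactT z.1 z.2.1 - reactT z.2.1 z.1)
        (fun z => reactT z.1 z.2.1 + reactT z.2.1 z.1) (fun _ => 0) z le_rfl hB
      simp only [mul_zero, add_zero] at h2
      rw [← h2] at h1
      linarith [le_of_mul_le_mul_left h1 (scale_pos le_rfl hB)]) hκ
  refine ⟨θ₀, h0, fun θ hθ hθ' f g x h μ hf hg hq hx => ?_⟩
  set A := x + θ with hAdef
  have hA : 0 < A := by positivity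
  have hs := sum_le_two hf.1 hf.2 hg.1 hg.2 hq
  have hB : 0 < bB f g A := hA.trans_le (bB_nonneg hA.le hs)
  have hbox : InBox f g A := ⟨hf.1, hf.2, hg.1, hg.2, hA.le⟩
  rw [bodyForm_affine V hA.ne']
  refine weighted (scale_pos hA.le hB).le hA hx (by linarith)
    (E := excess V ρ (fun z => reactT z.1 z.2.1 - reactT z.2.1 z.1) (fun z => reactT z.1 z.2.1 + reactT z.2.1 z.1)
      (fun _ => 0) ((f, g, 0), A)) ?_
    ((gate_le hT.nonneg hf.1 hf.2 hg.1 hg.2 hs hA.le).trans (hH.interior f g A hbox hq h μ)) ?_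
  · have h2 := scale_excess V ρ (fun z => reactT z.1 z.2.1 - reactT z.2.1 z.1)
      (fun z => reactT z.1 z.2.1 + reactT z.2.1 z.1) (fun _ => 0) (f, g, 0) hA.le hB
    simp only [mul_zero, add_zero] at h2
    rw [h2, body_zero]
    have := scV_nonneg hA.le hs (hH.hess_nonneg f g A hbox hq)
    exact le_add_of_nonneg_right (by positivity)
  · rw [show A - x = θ by rw [hAdef]; ring]
    exact hθ₀ θ hθ hθ' (f, g, 0) ⟨⟨hf, hg, ⟨le_rfl, le_rfl⟩⟩, hq⟩ x hx

/-- The contact form in one of the three cases, with the coefficients at `x + θ`. -/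
lemma contact_loss (hH : Holds V ρ) {c : ℝ} (hT : GoodTarget ρ c) {κ : ℝ} (hκ : 0 < κ) (Φ : ℝ)
    {al be : ℝ} (hal : 0 ≤ al) (hbe : 0 ≤ be) :
    ∃ θ₀ > 0, ∀ θ : ℝ, 0 < θ → θ ≤ θ₀ → ∀ f g x h φ : ℝ, f ∈ Set.Icc (0 : ℝ) (141 / 100) →
      g ∈ Set.Icc (0 : ℝ) (141 / 100) → qLev f + qLev g = 2 → ContactCase f g al be →
      φ ∈ Set.Icc 0 Φ → 0 ≤ x →
      scale f g (x + θ) * (gateWeight ρ f g - κ) ≤ contactForm V f g (x + θ) x al be h φ := by
  set K : Set (ℝ × ℝ × ℝ) := (Set.Icc (0 : ℝ) (141 / 100) ×ˢ Set.Icc (0 : ℝ) (141 / 100) ×ˢ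
    Set.Icc (0 : ℝ) Φ) ∩ {z | qLev z.1 + qLev z.2.1 = 2 ∧ ContactCase z.1 z.2.1 al be}
  have cf : Continuous fun z : ℝ × ℝ × ℝ => z.1 := continuous_fst
  have cg : Continuous fun z : ℝ × ℝ × ℝ => z.2.1 := continuous_fst.comp continuous_snd
  have cp : Continuous fun z : ℝ × ℝ × ℝ => z.2.2 := continuous_snd.comp continuous_snd
  have hK : IsCompact K := by
    refine (isCompact_Icc.prod (isCompact_Icc.prod isCompact_Icc)).inter_right
      (IsClosed.inter (isClosed_eq ((continuous_qLev.comp cf).add (continuous_qLev.comp cg))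
        continuous_const) ?_)
    exact IsClosed.union (isClosed_const.inter isClosed_const) (IsClosed.union
      (isClosed_const.inter (isClosed_const.inter (isClosed_le (cf.pow 3) continuous_const)))
      (isClosed_const.inter (isClosed_const.inter (isClosed_le (cg.pow 3) continuous_const))))
  have eF : ∀ f g φ : ℝ, contactForm V f g 0 0 al be ((contactData al be).1 (f, g, φ) / 4) φ =
      scV V.Y0 f g 0 * (contactData al be).1 (f, g, φ) +
        scV V.Y1 f g 0 * (contactData al be).2.1 (f, g, φ) -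
        3 / 4 * scV V.Y2 f g 0 * (contactData al be).1 (f, g, φ) ^ 2 +
        (scV V.Y3 f g 0 + φ * scK V.Y4 f g 0) * (contactData al be).2.2 (f, g, φ) := fun f g φ => by
    simp only [contactForm, body_zero, contactData, levelPart]
    ring
  obtain ⟨θ₀, h0, hθ₀⟩ := excess_small V hH.fit hT.cont hT.nonneg hK (Φ := Φ)
    (L := (contactData al be).1) (M := (contactData al be).2.1) (R := (contactData al be).2.2)
    (fun z ⟨⟨hf, hg, hp⟩, hq, _⟩ => ⟨hf, hg, sum_le_two hf.1 hf.2 hg.1 hg.2 hq.le, hp.1, hp.2⟩)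
    (((continuous_reactF.comp cf).sub (continuous_reactF.comp cg)).add
      (cp.mul (((continuous_eLev.comp cf).const_mul al).sub
        ((continuous_eLev.comp cg).const_mul be))))
    (((continuous_reactF.comp cf).add (continuous_reactF.comp cg)).add
      (cp.mul (((continuous_eLev.comp cf).const_mul al).add
        ((continuous_eLev.comp cg).const_mul be))))
    ((((continuous_eLev.comp cf).mul (continuous_reactF.comp cf)).add
      ((continuous_eLev.comp cg).mul (continuous_reactF.comp cg))).add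
      (cp.mul ((((continuous_eLev.comp cf).pow 2).const_mul al).add
        (((continuous_eLev.comp cg).pow 2).const_mul be)))).continuousOn
    (fun z ⟨⟨hf, hg, hp⟩, hq, _⟩ h1 h2 => by
      have hs := sum_le_two hf.1 hf.2 hg.1 hg.2 hq.le
      have h3 : 0 ≤ z.2.2 * (al * eLev z.1 ^ 2 + be * eLev z.2.1 ^ 2) :=
        mul_nonneg hp.1 (by positivity)
      simp only [contactData]
      linarith [react_near h1, react_near h2])
    (fun z ⟨⟨hf, hg, hp⟩, hq, _⟩ A hA =>
      mul_nonneg hp.1 (hH.mult_nonneg _ _ A ⟨hf.1, hf.2, hg.1, hg.2, hA⟩ hq).2)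
    (fun z hz hB => by
      obtain ⟨f, g, φ⟩ := z
      obtain ⟨⟨hf, hg, hp⟩, hq, hc⟩ := hz
      have hs := sum_le_two hf.1 hf.2 hg.1 hg.2 hq.le
      have h1 := (gate_le hT.nonneg hf.1 hf.2 hg.1 hg.2 hs le_rfl).trans
        (hH.contact f g 0 al be ⟨hf.1, hf.2, hg.1, hg.2, le_rfl⟩ hq hc
          ((contactData al be).1 (f, g, φ) / 4) φ hp.1)
      have h2 := scale_excess V ρ (contactData al be).1 (contactData al be).2.1
        (contactData al be).2.2 (f, g, φ) le_rfl hB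
      rw [eF, ← h2] at h1
      linarith [le_of_mul_le_mul_left h1 (scale_pos le_rfl hB)]) hκ
  refine ⟨θ₀, h0, fun θ hθ hθ' f g x h φ hf hg hq hc hp hx => ?_⟩
  set A := x + θ with hAdef
  have hA : 0 < A := by positivity
  have hs := sum_le_two hf.1 hf.2 hg.1 hg.2 hq.le
  have hB : 0 < bB f g A := hA.trans_le (bB_nonneg hA.le hs)
  have hbox : InBox f g A := ⟨hf.1, hf.2, hg.1, hg.2, hA.le⟩
  rw [contactForm_affine V hA.ne']
  refine weighted (scale_pos hA.le hB).le hA hx (by linarith)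
    (E := excess V ρ (contactData al be).1 (contactData al be).2.1 (contactData al be).2.2
      ((f, g, φ), A)) ?_
    ((gate_le hT.nonneg hf.1 hf.2 hg.1 hg.2 hs hA.le).trans
      (hH.contact f g A al be hbox hq hc h φ hp.1)) ?_
  · rw [scale_excess V ρ _ _ _ (f, g, φ) hA.le hB]
    have h2 := scV_nonneg hA.le hs (hH.hess_nonneg f g A hbox hq.le)
    simp only [contactForm, body_zero, contactData, levelPart, zero_mul, zero_div, add_zero]
    linarith [mul_nonneg (show 0 ≤ 4 / 3 * scV V.Y2 f g A by positivity)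
      (sq_nonneg (h - (reactF f - reactF g + φ * (al * eLev f - be * eLev g)) / 4))]
  · rw [show A - x = θ by rw [hAdef]; ring]
    exact hθ₀ θ hθ hθ' (f, g, φ) ⟨⟨hf, hg, hp⟩, hq, hc⟩ x hx

/-- The gradients at contact. -/
lemma contact_gradients {f g : ℝ} (hE : eLev f + eLev g ≠ 0) {a b : Fin 4 → ℝ}
    (h : eLev f • a + eLev g • b = 0) :
    a + b = slope f g • (a - b) ∧
    a ⬝ᵥ a = (eLev g / (eLev f + eLev g)) ^ 2 * ((a - b) ⬝ᵥ (a - b)) ∧
    b ⬝ᵥ b = (eLev f / (eLev f + eLev g)) ^ 2 * ((a - b) ⬝ᵥ (a - b)) := by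
  set E := eLev f + eLev g with hEdef
  have ha : a = (eLev g / E) • (a - b) := by
    funext i
    have hi : eLev f * a i + eLev g * b i = 0 := by simpa using congr_fun h i
    simp only [Pi.smul_apply, Pi.sub_apply, smul_eq_mul]
    field_simp
    rw [hEdef]
    linear_combination hi
  have hb : b = (-(eLev f / E)) • (a - b) := by
    funext i
    have hi : eLev f * a i + eLev g * b i = 0 := by simpa using congr_fun h i
    simp only [Pi.smul_apply, Pi.sub_apply, smul_eq_mul]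
    field_simp
    rw [hEdef]
    linear_combination hi
  refine ⟨?_, ?_, ?_⟩
  · have e : a + b = _ := congrArg₂ (fun u v : Fin 4 → ℝ => u + v) ha hb
    rw [e, ← add_smul, slope, ← hEdef, sub_div, ← sub_eq_add_neg]
  · have e : a ⬝ᵥ a = _ := congrArg₂ (fun u v : Fin 4 → ℝ => u ⬝ᵥ v) ha ha
    rw [e]
    simp only [smul_dotProduct, dotProduct_smul, smul_eq_mul]
    ring
  · have e : b ⬝ᵥ b = _ := congrArg₂ (fun u v : Fin 4 → ℝ => u ⬝ᵥ v) hb hb
    rw [e]
    simp only [smul_dotProduct, dotProduct_smul, smul_eq_mul]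
    ring

lemma coef_nonneg {p θ : ℝ} {Y : Num} (hθ : 0 < θ) {s t : ℝ} (a b : Fin 4 → ℝ) (hs : s + t ≤ 2)
    (h : 0 ≤ Y.val (s - t) (2 - s - t) ((a - b) ⬝ᵥ (a - b) + θ)) :
    0 ≤ coef p Y θ (pt s t a b) := by
  rw [(coef_data p Y hθ a b hs).1, quot]
  have hA : 0 ≤ (a - b) ⬝ᵥ (a - b) + θ := by linarith [dot_self_nonneg (a - b)]
  have := hA.trans (bB_nonneg hA hs)
  exact div_nonneg (mul_nonneg h (Real.rpow_nonneg (by simpa only [bB] using this) _)) (sq_nonneg _)

/-- The regularised fields and multipliers are bounded by one power. -/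
lemma regular_growth (V : Vec) {θ : ℝ} (hθ : 0 < θ) :
    ∃ (n : ℕ) (B : ℝ), ∀ (s t : ℝ) (a b : Fin 4 → ℝ),
      s ∈ Set.Icc (-1 : ℝ) 3 → t ∈ Set.Icc (-1 : ℝ) 3 →
      (∀ i, |fields (coef3 V θ) i (pt s t a b)| ≤ B * (1 + (a ⬝ᵥ a + b ⬝ᵥ b)) ^ n ∧
        ∀ j, |part (fields (coef3 V θ) i) j (pt s t a b)| ≤
          B * (1 + (a ⬝ᵥ a + b ⬝ᵥ b)) ^ n) ∧
      |coef (4 / 3) V.Y3 θ (pt s t a b) / 3| ≤ B * (1 + (a ⬝ᵥ a + b ⬝ᵥ b)) ^ n ∧
      |coef (7 / 3) V.Y4 θ (pt s t a b) / 3| ≤ B * (1 + (a ⬝ᵥ a + b ⬝ᵥ b)) ^ n := by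
  have g3 : ∀ i, Grow (coef3 V θ i) ∧ ∀ j, Grow (part (coef3 V θ i) j) := fun i => by
    fin_cases i <;> exact grow_coef (by norm_num) _ hθ
  have gP : ∀ i, Grow (fields (coef3 V θ) i) := fun i => by
    fin_cases i
    exacts [(g3 0).1.add (g3 1).1, (g3 1).1.sub (g3 0).1, (g3 2).1, (g3 2).1, (g3 2).1.neg,
      (g3 2).1.neg]
  have gD : ∀ i j, Grow (part (fields (coef3 V θ) i) j) := fun i j => by
    have e := part_fields (contDiff_coef3 V hθ) j
    fin_cases i
    · exact (funext fun y => (e y).1 : part (fields (coef3 V θ) 0) j = _) ▸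
        ((g3 0).2 j).add ((g3 1).2 j)
    · exact (funext fun y => (e y).2.1 : part (fields (coef3 V θ) 1) j = _) ▸
        ((g3 1).2 j).sub ((g3 0).2 j)
    · exact (funext fun y => (e y).2.2.1 : part (fields (coef3 V θ) 2) j = _) ▸ (g3 2).2 j
    · exact (funext fun y => (e y).2.2.2.1 : part (fields (coef3 V θ) 3) j = _) ▸ (g3 2).2 j
    · exact (funext fun y => (e y).2.2.2.2.1 : part (fields (coef3 V θ) 4) j = _) ▸
        ((g3 2).2 j).neg
    · exact (funext fun y => (e y).2.2.2.2.2 : part (fields (coef3 V θ) 5) j = _) ▸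
        ((g3 2).2 j).neg
  have gk : ∀ p : ℝ, 0 ≤ p → ∀ Y, Grow fun y => coef p Y θ y / 3 := fun p hp Y => by
    simpa only [div_eq_mul_inv] using (grow_coef hp Y hθ).1.mul (Grow.const 3⁻¹)
  obtain ⟨n, B, -, hB⟩ := (((Grow.sum Finset.univ fun i => (gP i).abs).add
    (Grow.sum Finset.univ fun i => Grow.sum Finset.univ fun j => (gD i j).abs)).add
    (gk (4 / 3) (by norm_num) V.Y3).abs).add (gk (7 / 3) (by norm_num) V.Y4).abs
  refine ⟨n, B, fun s t a b hs ht => ?_⟩
  have h := (le_abs_self _).trans (hB s t a b hs ht)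
  set y := pt s t a b
  have n1 : 0 ≤ ∑ i, |fields (coef3 V θ) i y| := Finset.sum_nonneg fun i _ => abs_nonneg _
  have n2 : 0 ≤ ∑ i, ∑ j, |part (fields (coef3 V θ) i) j y| :=
    Finset.sum_nonneg fun i _ => Finset.sum_nonneg fun j _ => abs_nonneg _
  have n3 := abs_nonneg (coef (4 / 3) V.Y3 θ y / 3)
  have n4 := abs_nonneg (coef (7 / 3) V.Y4 θ y / 3)
  refine ⟨fun i => ⟨?_, fun j => ?_⟩, by linarith, by linarith⟩
  · linarith [Finset.single_le_sum (fun k _ => abs_nonneg (fields (coef3 V θ) k y))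
      (Finset.mem_univ i)]
  · linarith [(Finset.single_le_sum (fun k _ => abs_nonneg (part (fields (coef3 V θ) i) k y))
      (Finset.mem_univ j)).trans (Finset.single_le_sum (fun l _ => Finset.sum_nonneg
        fun k _ => abs_nonneg (part (fields (coef3 V θ) l) k y)) (Finset.mem_univ i))]

/-- The reduction. -/
theorem pointwise_of_holds (hH : Holds V ρ) {c : ℝ} (hT : GoodTarget ρ c) (κ : ℝ) (hκ : 0 < κ)
    (Φ : ℝ) : Nonempty (Pointwise (gateWeight ρ) κ Φ) := by
  obtain ⟨θ₁, p₁, h₁⟩ := interior_loss hH hT hκ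
  obtain ⟨θ₂, p₂, h₂⟩ := contact_loss hH hT hκ Φ (al := 1) (be := 1) zero_le_one zero_le_one
  obtain ⟨θ₃, p₃, h₃⟩ := contact_loss hH hT hκ Φ (al := 0) (be := 1) le_rfl zero_le_one
  obtain ⟨θ₄, p₄, h₄⟩ := contact_loss hH hT hκ Φ (al := 1) (be := 0) zero_le_one le_rfl
  set θ := min (min θ₁ θ₂) (min θ₃ θ₄)
  have hθ : 0 < θ := lt_min (lt_min p₁ p₂) (lt_min p₃ p₄)
  have l₁ : θ ≤ θ₁ := (min_le_left _ _).trans (min_le_left _ _)
  have l₂ : θ ≤ θ₂ := (min_le_left _ _).trans (min_le_right _ _)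
  have l₃ : θ ≤ θ₃ := (min_le_right _ _).trans (min_le_left _ _)
  have l₄ : θ ≤ θ₄ := (min_le_right _ _).trans (min_le_right _ _)
  have signs : ∀ {s t A x : ℝ}, s ∈ Set.Icc (0 : ℝ) (141 / 100) →
      t ∈ Set.Icc (0 : ℝ) (141 / 100) → qLev s + qLev t ≤ 2 → 0 < A → 0 ≤ x → x ≤ A →
      0 ≤ scV V.Y2 s t A ∧ 0 ≤ scU V.Y1 s t A ∧ ∀ T τ : ℝ, 0 ≤ pairForm V s t A x T τ := by
    intro s t A x hs ht hq hA hx hxA
    have hbox : InBox s t A := ⟨hs.1, hs.2, ht.1, ht.2, hA.le⟩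
    have h2 := scV_nonneg hA.le (sum_le_two hs.1 hs.2 ht.1 ht.2 hq) (hH.hess_nonneg s t A hbox hq)
    have h := hH.pair s t A hbox hq 0 1
    simp only [pairForm, zero_pow two_ne_zero, zero_mul, zero_add, one_pow, one_mul, add_zero] at h
    exact ⟨h2, nonneg_of_mul_nonneg_right h hA, fun T τ =>
      pairForm_nonneg V hA hx hxA h2 (hH.pair s t A hbox hq T τ)⟩
  refine ⟨
    { P := fields (coef3 V θ)
      k := fun y => coef (4 / 3) V.Y3 θ y / 3
      k₁ := fun y => coef (7 / 3) V.Y4 θ y / 3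
      smooth_P := contDiff_fields (contDiff_coef3 V hθ)
      smooth_k := (contDiff_coef _ _ hθ).div_const 3
      smooth_k₁ := (contDiff_coef _ _ hθ).div_const 3
      growth := regular_growth V hθ
      nonneg_k := fun s t a b hs ht hq => ?_
      interior := fun s t a b H K hH' hK' hs ht hq eH eK => ?_
      contact := fun φ s t p p' a b H K hH' hK' hs ht hq hab hφ hF eH eK => ?_ }⟩
  · have hA : 0 ≤ (a - b) ⬝ᵥ (a - b) + θ := by linarith [dot_self_nonneg (a - b)]
    obtain ⟨n3, n4⟩ := hH.mult_nonneg s t _ ⟨hs.1, hs.2, ht.1, ht.2, hA⟩ hq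
    have hst := sum_le_two hs.1 hs.2 ht.1 ht.2 hq.le
    exact ⟨div_nonneg (coef_nonneg hθ a b hst n3) (by norm_num),
      div_nonneg (coef_nonneg hθ a b hst n4) (by norm_num)⟩
  · have hst := sum_le_two hs.1 hs.2 ht.1 ht.2 hq
    set x := (a - b) ⬝ᵥ (a - b) with hxdef
    have hx : 0 ≤ x := dot_self_nonneg _
    have hA : 0 < x + θ := by positivity
    obtain ⟨s2, s1, sp⟩ := signs hs ht hq hA hx (by linarith)
    obtain ⟨h, μ, -, hj⟩ := jet_ge V hθ hH' hK' hst (a := a) (b := b) s2 s1 sp 0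
    rw [eH, eK, ← hxdef] at hj
    have h5 := le_of_mul_le_mul_left ((h₁ θ hθ l₁ s t x h μ hs ht hq hx).trans hj)
      (scale_pos hA.le (hA.trans_le (bB_nonneg hA.le hst)))
    linarith
  · have hst := sum_le_two hs.1 hs.2 ht.1 ht.2 hq.le
    set x := (a - b) ⬝ᵥ (a - b) with hxdef
    have hx : 0 ≤ x := dot_self_nonneg _
    have hA : 0 < x + θ := by positivity
    have hB := hA.trans_le (bB_nonneg hA.le hst)
    have hE := eLev_sum_pos hs.1 hs.2 ht.1 ht.2 hq
    obtain ⟨gsum, ga, gb⟩ := contact_gradients hE.ne' hab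
    obtain ⟨s2, s1, sp⟩ := signs hs ht hq.le hA hx (by linarith)
    obtain ⟨h, μ, hμ, hj⟩ := jet_ge V hθ hH' hK' hst (a := a) (b := b) s2 s1 sp (slope s t)
    rw [hμ gsum, ← hxdef] at hj
    have goal_of : ∀ al be : ℝ, p = φ * (al * eLev s) → p' = φ * (be * eLev t) →
        scale s t (x + θ) * (gateWeight ρ s t - κ) ≤ contactForm V s t (x + θ) x al be h φ →
        gateWeight ρ s t ≤ divJet (fields (coef3 V θ)) 1 s t a b H K +
          (coef (4 / 3) V.Y3 θ (pt s t a b) / 3 + φ * (coef (7 / 3) V.Y4 θ (pt s t a b) / 3)) *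
            levelJetQ s t a b H K + κ := by
      intro al be e e' hc
      have eL : H.trace - K.trace = reactF s - reactF t + φ * (al * eLev s - be * eLev t) := by
        rw [eH, eK, e, e']; ring
      have eM : H.trace + K.trace = reactF s + reactF t + φ * (al * eLev s + be * eLev t) := by
        rw [eH, eK, e, e']; ring
      have eQ : levelJetQ s t a b H K = 3 * levelPart s t x al be φ := by
        rw [levelJetQ, eH, eK, e, e', ga, gb, ← hxdef, levelPart]
        field_simp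
        ring
      rw [eL, eM] at hj
      rw [eQ, (coef_data (4 / 3) V.Y3 hθ a b hst).1, (coef_data (7 / 3) V.Y4 hθ a b hst).1,
        ← hxdef]
      have c3 := (scale_mul V.Y3 hA.le hB).1
      have c4 := (scale_mul V.Y4 hA.le hB).2.1
      simp only [cval] at c3 c4
      simp only [contactForm, ← c3, ← c4] at hc
      set c₃ := quot (4 / 3) V.Y3 (s - t) (2 - s - t) (x + θ)
      set c₄ := quot (7 / 3) V.Y4 (s - t) (2 - s - t) (x + θ)
      have h5 : scale s t (x + θ) * (gateWeight ρ s t - κ) ≤ scale s t (x + θ) *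
          (divJet (fields (coef3 V θ)) 1 s t a b H K +
            (c₃ + φ * c₄) * levelPart s t x al be φ) := by
        rw [mul_add]
        linarith
      linarith [le_of_mul_le_mul_left h5 (scale_pos hA.le hB)]
    have both := h₂ θ hθ l₂ s t x h φ hs ht hq (Or.inl ⟨rfl, rfl⟩) hφ hx
    have nn : ∀ r z : ℝ, 0 ≤ r → r ≤ 1 →
        0 ≤ 2 / 3 * scV V.Y2 s t (x + θ) * (r * (1 - r)) * z ^ 2 := fun r z r0 r1 => by
      have : 0 ≤ 1 - r := by linarith
      positivity
    rcases forces_cases hF with ⟨e, e'⟩ | ⟨r, r0, r1, hs3, e, e'⟩ | ⟨r, r0, r1, ht3, e, e'⟩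
    · exact goal_of 1 1 (by rw [one_mul, e]) (by rw [one_mul, e']) both
    · refine goal_of r 1 e (by rw [one_mul, e']) ?_
      rw [(contact_mix V s t (x + θ) x h φ r).1]
      have one := h₃ θ hθ l₃ s t x h φ hs ht hq (Or.inr (Or.inl ⟨rfl, rfl, hs3⟩)) hφ hx
      linarith [mul_le_mul_of_nonneg_left one (show 0 ≤ 1 - r by linarith),
        mul_le_mul_of_nonneg_left both r0, nn r (φ * eLev s) r0 r1]
    · refine goal_of 1 r (by rw [one_mul, e]) e' ?_
      rw [(contact_mix V s t (x + θ) x h φ r).2]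
      have one := h₄ θ hθ l₄ s t x h φ hs ht hq (Or.inr (Or.inr ⟨rfl, rfl, ht3⟩)) hφ hx
      linarith [mul_le_mul_of_nonneg_left one (show 0 ≤ 1 - r by linarith),
        mul_le_mul_of_nonneg_left both r0, nn r (φ * eLev t) r0 r1]

/-- The facts about the weight used by the analysis. -/
theorem gateWeight_facts {c : ℝ} (hT : GoodTarget ρ c) :
    (Continuous fun z : ℝ × ℝ => gateWeight ρ z.1 z.2) ∧ (∀ f g, 0 ≤ gateWeight ρ f g) ∧
    c ≤ 3 / 5 ∧ ∀ f g, 0 ≤ f → 0 ≤ g → qLev f + qLev g ≤ 2 → gateWeight ρ f g = 0 →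
      f ≤ c ∨ g ≤ c ∨ f = g := by
  refine ⟨continuous_gateWeight hT.cont, gateWeight_nonneg hT.nonneg, hT.band,
    fun f g f0 g0 hq h => ?_⟩
  simp only [gateWeight, div_eq_zero_iff, mul_eq_zero, pow_eq_zero_iff (show 8 ≠ 0 by norm_num),
    sub_eq_zero] at h
  rcases h with (h | h) | h
  · exact hT.zeros f g f0 g0 hq h
  · exact Or.inr (Or.inr h)
  · norm_num at h

end

end Vale.Agent.P211.Cert
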